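import Crest.Agent.R121.TF

/-! Task 121-I: from the random walk to almost modular Markov averages. -/

set_option autoImplicit false
set_option linter.unusedSectionVars false
set_option linter.unusedVariables false

open scoped InnerProductSpace ComplexOrder
open Filter Topology

namespace Crest.Agent.R121
open Crest.Agent.R124

variable {H : Type*} [NormedAddCommGroup H] [InnerProductSpace ℂ H] [CompleteSpace H]

theorem core {N : VonNeumannAlgebra H} {Γ : Type} [Group Γ] [Fintype Γ] (d : Sym N Γ)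
    (hW : Walk N d.σ d.T0) {ε : ℝ} (hε : 0 < ε) :
    ∃ Θ, Mk N Θ ∧ (∀ φ g x, Θ φ (x * d.u g) = Θ φ x * d.u g) ∧
      ∀ (w : TF N) (φ : LM H) (β : ℝ), Bd N φ β → ∀ y ∈ N, ‖y‖ ≤ 1 →
        w.n2 (Θ φ (y * d.σ) - Θ φ y * d.σ) ≤ ε * β ^ 2 := by
  sorry

end Crest.Agent.R121
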