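import Crest.Agent.R124.Inter
import Crest.Agent.R124.SimAux1
import Crest.Prelude.Def_Hochschild

/-! Row 121 (bounded Hochschild cohomology of von Neumann algebras): shared definitions. -/

set_option autoImplicit false

open scoped InnerProductSpace ComplexOrder
open Filter Topology

namespace Crest.Agent.R121
open Crest.Agent.R124

/-- Linear maps on operators. -/
abbrev LM (H : Type*) [NormedAddCommGroup H] [InnerProductSpace ℂ H] := Op H →ₗ[ℂ] Op H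

variable {H : Type*} [NormedAddCommGroup H] [InnerProductSpace ℂ H] [CompleteSpace H]

/-- Left multiplication. -/
noncomputable abbrev Lm (a : Op H) : LM H := LinearMap.mulLeft ℂ a

/-- Right multiplication. -/
noncomputable abbrev Rm (a : Op H) : LM H := LinearMap.mulRight ℂ a

/-- Unitary of `P`. -/
def Uni (P : VonNeumannAlgebra H) (u : Op H) : Prop := u ∈ P ∧ star u * u = 1 ∧ u * star u = 1

/-- `φ` maps `P` to `P` with bound `β`. -/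
def Bd (P : VonNeumannAlgebra H) (φ : LM H) (β : ℝ) : Prop :=
  0 ≤ β ∧ ∀ x ∈ P, φ x ∈ P ∧ ‖φ x‖ ≤ β * ‖x‖

/-- The operator matrix `Z` has norm at most `c`. -/
def Con {I J : Type} [Fintype I] [Fintype J] (Z : I → J → Op H) (c : ℝ) : Prop :=
  ∀ ξ : J → H, ∑ i, ‖∑ j, Z i j (ξ j)‖ ^ 2 ≤ c ^ 2 * ∑ j, ‖ξ j‖ ^ 2

/-- `φ` maps `P` to `P` with completely bounded norm at most `β`. -/
def CBd (P : VonNeumannAlgebra H) (φ : LM H) (β : ℝ) : Prop :=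
  Bd P φ β ∧ ∀ (I J : Type) [Fintype I] [Fintype J] (Z : I → J → Op H), (∀ i j, Z i j ∈ P) →
    Con Z 1 → Con (fun i j => φ (Z i j)) β

/-- A class of maps on which one averages. -/
structure Cls (P : VonNeumannAlgebra H) (Q : LM H → ℝ → Prop) : Prop where
  zero : ∀ φ : LM H, (∀ x ∈ P, φ x = 0) → Q φ 0
  id : Q LinearMap.id 1
  left : ∀ φ β, Q φ β → ∀ a ∈ P, Q (Lm a ∘ₗ φ) (‖a‖ * β)
  right : ∀ φ β, Q φ β → ∀ a ∈ P, Q (φ ∘ₗ Lm a) (β * ‖a‖)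

/-- An averaging operator: a left `P`-module and right `B`-module map sending `id` to `z`. -/
structure IsE (P : VonNeumannAlgebra H) (Q : LM H → ℝ → Prop) (B : Set (Op H)) (z : Op H)
    (C : ℝ) (E : LM H →ₗ[ℂ] Op H) : Prop where
  bd : ∀ φ β, Q φ β → E φ ∈ P ∧ ‖E φ‖ ≤ C * β
  left : ∀ φ β, Q φ β → ∀ a ∈ P, E (Lm a ∘ₗ φ) = a * E φ
  right : ∀ φ β, Q φ β → ∀ a ∈ B, E (φ ∘ₗ Lm a) = E φ * a
  id : E LinearMap.id = z

/-- Weak operator limit along a filter. -/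
def WLim {ι : Type*} (U : Filter ι) (S : ι → Op H) (T : Op H) : Prop :=
  ∀ x y : H, Tendsto (fun i => ⟪S i y, x⟫_ℂ) U (𝓝 ⟪T y, x⟫_ℂ)

/-- Bounded cochains. -/
abbrev CM (A : Type*) [NormedRing A] [NormedAlgebra ℂ A] (n : ℕ) :=
  ContinuousMultilinearMap ℂ (fun _ : Fin n => A) A

/-- Cocycles. -/
def Coc {A : Type*} [Ring A] {n : ℕ} (f : (Fin n → A) → A) : Prop :=
  ∀ a : Fin (n + 1) → A, Crest.OpAlg.hochschildDiff f a = 0

/-! ### Markov operators -/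

/-- Operators on linear maps. -/
abbrev EM (H : Type*) [NormedAddCommGroup H] [InnerProductSpace ℂ H] := Module.End ℂ (LM H)

/-- `φ ↦ φ(· a) b`. -/
noncomputable def Tm (a b : Op H) : EM H where
  toFun φ := Rm b ∘ₗ φ ∘ₗ Rm a
  map_add' φ ψ := by simp only [LinearMap.add_comp, LinearMap.comp_add]
  map_smul' c φ := by simp only [LinearMap.smul_comp, LinearMap.comp_smul, RingHom.id_apply]

@[simp] theorem Tm_apply (a b : Op H) (φ : LM H) (x : Op H) : Tm a b φ x = φ (x * a) * b := rfl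

/-- Convex combinations of the operators `φ ↦ φ(· u) u*`, `u` unitary in `P`. -/
def Mk (P : VonNeumannAlgebra H) (Θ : EM H) : Prop :=
  ∃ (ι : Type) (_ : Fintype ι) (p : ι → ℝ) (v : ι → Op H), (∀ i, 0 ≤ p i ∧ Uni P (v i)) ∧
    ∑ i, p i = 1 ∧ Θ = ∑ i, p i • Tm (v i) (star (v i))

/-- A positive tracial functional of norm at most one. -/
structure TF (P : VonNeumannAlgebra H) where
  w : Op H →ₗ[ℂ] ℂ
  nonneg : ∀ a ∈ P, 0 ≤ a → 0 ≤ w a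
  comm : ∀ a ∈ P, ∀ b ∈ P, w (a * b) = w (b * a)
  one : (w 1).re ≤ 1

/-- Square of the `2`-norm. -/
noncomputable def TF.n2 {P : VonNeumannAlgebra H} (w : TF P) (a : Op H) : ℝ :=
  (w.w (star a * a)).re

/-- `P` has partitions of unity into projections of small trace. -/
def Part (P : VonNeumannAlgebra H) (T : Tr P) : Prop :=
  ∀ ρ : ℝ, 0 < ρ → ∃ (ι : Type) (_ : Fintype ι) (e : ι → Op H),
    (∀ i, e i ∈ P ∧ IsStarProjection (e i) ∧ ‖T.τ (e i)‖ ≤ ρ) ∧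
    (∀ i j, i ≠ j → e i * e j = 0) ∧ ∑ i, e i = 1

/-- A symmetry `σ` and a finite unitary group containing an element anticommuting with `σ`. -/
structure Sym (N : VonNeumannAlgebra H) (Γ : Type) [Group Γ] where
  σ : Op H
  u : Γ →* Op H
  a : Γ
  hσN : σ ∈ N
  hσ : star σ = σ
  hσ2 : σ * σ = 1
  huN : ∀ g, u g ∈ N
  hus : ∀ g, star (u g) = u g⁻¹
  ha : u a * σ = -(σ * u a)

section
variable {N : VonNeumannAlgebra H} {Γ : Type} [Group Γ] [Fintype Γ]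

/-- Averaging over the group. -/
noncomputable def Sym.E (d : Sym N Γ) : EM H := av fun g => Tm (d.u g) (d.u g⁻¹)

/-- The basic Markov operator. -/
noncomputable def Sym.T0 (d : Sym N Γ) : EM H := d.E * ((1 / 2 : ℝ) • (1 + Tm d.σ d.σ)) * d.E

end

/-- A law of letters for the random walk. -/
structure Law (N : VonNeumannAlgebra H) (T : Tr N) (T₀ : EM H) (𝓔 F : Set (Op H)) (ρ : ℝ)
    (n : ℕ) (s : Fin (n + 1) → Op H) : Prop where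
  mem : ∀ j, s j ∈ N
  sa : ∀ j, star (s j) = s j
  bd : ∀ j, ‖s j‖ ≤ 2
  mean : av s = 0
  good : ∀ a ∈ F, ‖av (fun j => s j * a * s j) - T.τ a‖ ≤ ρ
  small : ∀ b ∈ N, ‖av (fun j => star (T.τ (b * s j)) * T.τ (b * s j))‖ ≤ ρ * ‖b‖ ^ 2
  cut1 : ∀ (w : TF N) (Ω : Type) [Fintype Ω] (X : Ω → Op H) (δ : ℝ), 0 ≤ δ → (∀ ω, X ω ∈ N) →
    (∀ f ∈ 𝓔, ‖av fun ω => star (X ω) * f * X ω‖ ≤ δ) →
    av (fun ω => w.n2 (av fun j => s j * X ω * s j)) ≤ δ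
  cut2 : ∀ (w : TF N) (φ : LM H) (β : ℝ), Bd N φ β → ∀ (Ω : Type) [Fintype Ω]
    (a b X : Ω → Op H) (c : Op H) (α δ : ℝ), 0 ≤ α → 0 ≤ δ → (∀ ω, a ω ∈ N ∧ ‖a ω‖ ≤ α) →
    (∀ ω, b ω ∈ N ∧ ‖b ω‖ ≤ α) → (∀ ω, X ω ∈ N ∧ ‖X ω‖ ≤ α) → c ∈ N → ‖c‖ ≤ 1 →
    (∀ f ∈ 𝓔, ‖av fun ω => star (X ω) * f * X ω‖ ≤ δ) →
    ‖av fun ω => av fun j => w.w (φ (a ω * s j * X ω) * c * s j * b ω)‖ ≤
      2 * β * α ^ 2 * √(δ + 2 * ρ * α ^ 2)
  mark : ∃ T', Mk N T' ∧ av (fun j => Tm (s j) (s j)) = T₀ * T' * T₀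

/-- Final spectral parameter. -/
noncomputable def eta (γ : ℝ) : ℝ := γ - 2 * (γ / (1 + γ ^ 2))

/-- Resolvent of `σ` at `i γ`. -/
noncomputable def M0 (σ : Op H) (γ : ℝ) : Op H :=
  (-(1 + γ ^ 2)⁻¹ : ℝ) • ((((γ : ℝ) : ℂ) * Complex.I) • 1 + σ)

/-- The averaged quantity. -/
noncomputable def AA {Ω : Type} [Fintype Ω] (x : Ω → Op H) (γ₁ γ₂ : ℝ) (y : Op H) (φ : LM H) :
    Op H := av fun ω => φ (y * res (x ω) (eta γ₁)) * res (x ω) (eta γ₂)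

/-- Output of the random walk. -/
def Walk (N : VonNeumannAlgebra H) (σ : Op H) (T₀ : EM H) : Prop :=
  ∀ (S : Finset ℝ), (∀ γ ∈ S, 1 < |γ|) → ∀ δ : ℝ, 0 < δ →
  ∃ (Ω : Type) (_ : Fintype Ω) (_ : Nonempty Ω) (x : Ω → Op H) (T' : EM H),
    (∀ ω, x ω ∈ N ∧ star (x ω) = x ω) ∧ Mk N T' ∧
    (∀ γ ∈ S, ‖av (fun ω => res (x ω) (eta γ)) - M0 σ γ‖ ≤ δ) ∧
    ∀ γ₁ ∈ S, ∀ γ₂ ∈ S, ∀ (w : TF N) (φ : LM H) (β : ℝ), Bd N φ β → ∀ y ∈ N, ‖y‖ ≤ 1 →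
      ∀ e ∈ N, ‖e‖ ≤ 1 →
      ‖w.w (e * (AA x γ₁ γ₂ y φ - Tm (M0 σ γ₁) (M0 σ γ₂) φ y -
        AA x γ₁ γ₂ y ((2 : ℝ) • (T₀ * T' * T₀ * Tm (M0 σ γ₁) (M0 σ γ₂)) φ)))‖ ≤ δ * β

end Crest.Agent.R121
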