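import Crest.Agent.R121.Lim

/-! Task 121-E: averaging completely bounded maps (Christensen-Sinclair). -/

set_option autoImplicit false
set_option linter.unusedSectionVars false
set_option linter.unusedVariables false

open scoped InnerProductSpace ComplexOrder
open Filter Topology

namespace Crest.Agent.R121
open Crest.Agent.R124

variable {H : Type*} [NormedAddCommGroup H] [InnerProductSpace ℂ H] [CompleteSpace H]

namespace E

theorem norm_sq_eq (a : Op H) (x : H) : ‖a x‖ ^ 2 = (⟪x, (star a * a) x⟫_ℂ).re := by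
  rw [ContinuousLinearMap.mul_apply, ContinuousLinearMap.star_eq_adjoint,
    ContinuousLinearMap.adjoint_inner_right, ← inner_self_eq_norm_sq (𝕜 := ℂ)]
  rfl

theorem col_eq {κ : Type*} (s : Finset κ) (m : κ → Op H) (x : H) :
    ∑ k ∈ s, ‖m k x‖ ^ 2 = (⟪x, (∑ k ∈ s, star (m k) * m k) x⟫_ℂ).re := by
  simp only [norm_sq_eq, ContinuousLinearMap.sum_apply, inner_sum, Complex.re_sum]

theorem col_one {κ : Type*} [Fintype κ] {m : κ → Op H} (h : ∑ k, star (m k) * m k = 1) (x : H) :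
    ∑ k, ‖m k x‖ ^ 2 = ‖x‖ ^ 2 := by
  rw [col_eq, h, ← inner_self_eq_norm_sq (𝕜 := ℂ)]
  rfl

theorem row_le {κ : Type*} [Fintype κ] {n : κ → Op H} (h : ∑ k, n k * star (n k) = 1)
    (ξ : κ → H) : ‖∑ k, n k (ξ k)‖ ^ 2 ≤ ∑ k, ‖ξ k‖ ^ 2 := by
  set y := ∑ k, n k (ξ k) with hy
  have h1 : ∑ k, ‖star (n k) y‖ ^ 2 = ‖y‖ ^ 2 := col_one (by simpa using h) y
  have h2 : ‖y‖ ^ 2 = ∑ k, (⟪star (n k) y, ξ k⟫_ℂ).re := by
    rw [← inner_self_eq_norm_sq (𝕜 := ℂ)]
    conv_lhs => rw [hy, inner_sum, ← hy]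
    simp only [ContinuousLinearMap.star_eq_adjoint, ContinuousLinearMap.adjoint_inner_left,
      map_sum]
    rfl
  have h3 : ∀ k, 2 * (⟪star (n k) y, ξ k⟫_ℂ).re ≤ ‖star (n k) y‖ ^ 2 + ‖ξ k‖ ^ 2 := fun k => by
    have := re_inner_le_norm (𝕜 := ℂ) (star (n k) y) (ξ k)
    have e : RCLike.re ⟪star (n k) y, ξ k⟫_ℂ = (⟪star (n k) y, ξ k⟫_ℂ).re := rfl
    nlinarith [sq_nonneg (‖star (n k) y‖ - ‖ξ k‖)]
  have h4 := Finset.sum_le_sum fun k (_ : k ∈ Finset.univ) => h3 k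
  rw [← Finset.mul_sum, Finset.sum_add_distrib] at h4
  linarith

/-- `T E φ y = E (φ ∘ Lm y)`. -/
noncomputable def T (E : LM H →ₗ[ℂ] Op H) : LM H →ₗ[ℂ] LM H where
  toFun φ :=
    { toFun := fun y => E (φ ∘ₗ Lm y)
      map_add' := fun x y => by
        rw [← map_add]; congr 1; ext1 z; simp [add_mul]
      map_smul' := fun c x => by
        rw [RingHom.id_apply, ← map_smul]; congr 1; ext1 z; simp }
  map_add' φ ψ := by ext1 y; simp [LinearMap.add_comp]
  map_smul' c φ := by ext1 y; simp [LinearMap.smul_comp]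

theorem T_apply (E : LM H →ₗ[ℂ] Op H) (φ : LM H) (y : Op H) : T E φ y = E (φ ∘ₗ Lm y) := rfl

theorem T_one (E : LM H →ₗ[ℂ] Op H) (φ : LM H) : T E φ 1 = E φ := by
  have : φ ∘ₗ Lm 1 = φ := by ext1 z; simp
  rw [T_apply, this]

theorem T_comp (E : LM H →ₗ[ℂ] Op H) (φ : LM H) (y : Op H) :
    T E (φ ∘ₗ Lm y) = T E φ ∘ₗ Lm y := by
  ext1 x
  have : (φ ∘ₗ Lm y) ∘ₗ Lm x = φ ∘ₗ Lm (y * x) := by ext1 z; simp
  simp only [T_apply, LinearMap.comp_apply, LinearMap.mulLeft_apply, this]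

variable {P : VonNeumannAlgebra H}

/-- The potential is at most `r`. -/
def Pb (P : VonNeumannAlgebra H) (ψ : LM H) (ζ : H) (r : ℝ) : Prop :=
  ∀ (I J : Type) [Fintype I] [Fintype J] (Z : I → J → Op H) (m : J → Op H), (∀ i j, Z i j ∈ P) →
    Con Z 1 → (∀ j, m j ∈ P) → ∑ j, star (m j) * m j = 1 →
    ∑ i, ‖∑ j, ψ (Z i j) (m j ζ)‖ ^ 2 ≤ r

/-- The class of averaging operators. -/
structure K (P : VonNeumannAlgebra H) (E : LM H →ₗ[ℂ] Op H) : Prop where
  isE : IsE P (CBd P) ∅ 1 1 E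
  cb : ∀ φ β, CBd P φ β → CBd P (T E φ) β
  pb : ∀ φ β, CBd P φ β → ∀ ζ r, Pb P φ ζ r → Pb P (T E φ) ζ r

theorem bd_T {E : LM H →ₗ[ℂ] Op H} (h : IsE P (CBd P) ∅ 1 1 E) {φ : LM H} {β : ℝ}
    (hφ : CBd P φ β) : Bd P (T E φ) β :=
  ⟨hφ.1.1, fun x hx => by
    simpa [T_apply] using h.bd _ _ ((cls_cbd P).right φ β hφ x hx)⟩

theorem K.comp {E E' : LM H →ₗ[ℂ] Op H} (h : K P E) (h' : K P E') : K P (E' ∘ₗ T E) := by
  have e : ∀ φ, T (E' ∘ₗ T E) φ = T E' (T E φ) := fun φ => by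
    ext1 y
    simp only [T_apply, LinearMap.comp_apply, T_comp]
  refine ⟨⟨fun φ β hφ => h'.isE.bd _ _ (h.cb φ β hφ), fun φ β hφ a ha => ?_,
    fun _ _ _ _ ha => absurd ha (Set.notMem_empty _), ?_⟩, fun φ β hφ => ?_,
    fun φ β hφ ζ r hr => ?_⟩
  · simp only [LinearMap.comp_apply]
    rw [← h'.isE.left _ _ (h.cb φ β hφ) a ha]
    refine h'.isE.congr (cls_cbd P) fun x hx => ?_
    exact h.isE.left _ _ ((cls_cbd P).right φ β hφ x hx) a ha
  · rw [← h'.isE.id]
    refine h'.isE.congr (cls_cbd P) fun x hx => ?_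
    have := h.isE.left _ _ (cls_cbd P).id x hx
    rw [h.isE.id, mul_one] at this
    exact this
  · rw [e]; exact h'.cb _ _ (h.cb φ β hφ)
  · rw [e]; exact h'.pb _ _ (h.cb φ β hφ) ζ r (h.pb φ β hφ ζ r hr)

theorem K.lim {ι : Type*} (U : Ultrafilter ι) (E : ι → LM H →ₗ[ℂ] Op H) (hE : ∀ i, K P (E i)) :
    ∃ E', K P E' ∧ ∀ φ β, CBd P φ β → ∀ y ∈ P, WLim U (fun i => T (E i) φ y) (T E' φ y) := by
  obtain ⟨E', h⟩ := exists_lim U E
  have h1 : ∀ φ β, CBd P φ β → WLim U (fun i => E i φ) (E' φ) := fun φ β hφ =>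
    h φ ⟨_, fun i => ((hE i).isE.bd φ β hφ).2⟩
  have h2 : ∀ φ β, CBd P φ β → ∀ y ∈ P, WLim U (fun i => T (E i) φ y) (T E' φ y) :=
    fun φ β hφ y hy => h1 _ _ ((cls_cbd P).right φ β hφ y hy)
  have h3 : IsE P (CBd P) ∅ 1 1 E' := by
    refine ⟨fun φ β hφ => ⟨(h1 φ β hφ).mem (.of_forall fun i => ((hE i).isE.bd φ β hφ).1),
      (h1 φ β hφ).norm_le (.of_forall fun i => ((hE i).isE.bd φ β hφ).2)⟩, fun φ β hφ a ha => ?_,
      fun _ _ _ _ ha => absurd ha (Set.notMem_empty _), ?_⟩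
    · refine (h1 _ _ ((cls_cbd P).left φ β hφ a ha)).unique ?_
      exact ((h1 φ β hφ).mul_left a).congr (.of_forall fun i => ((hE i).isE.left φ β hφ a ha).symm)
    · refine (h1 _ _ (cls_cbd P).id).unique ?_
      exact (WLim.const 1).congr (.of_forall fun i => (hE i).isE.id.symm)
  refine ⟨E', ⟨h3, fun φ β hφ => ⟨bd_T h3 hφ, fun I J _ _ Z hZ hc => ?_⟩,
    fun φ β hφ ζ r hr I J _ _ Z m hZ hc hm hm1 => ?_⟩, h2⟩
  · exact WLim.con (fun a b => h2 φ β hφ _ (hZ a b))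
      (.of_forall fun i => ((hE i).cb φ β hφ).2 I J Z hZ hc)
  · have := WLim.sum_sq_le Finset.univ (U := U)
      (S := fun a i => ∑ j, T (E i) φ (Z a j) * m j) (T := fun a => ∑ j, T E' φ (Z a j) * m j)
      (fun a _ => WLim.sum _ fun j _ => (h2 φ β hφ _ (hZ a j)).mul_right (m j)) (fun _ => ζ)
      (tendsto_const_nhds (x := r)) (.of_forall fun i => by
        simpa using (hE i).pb φ β hφ ζ r hr I J Z m hZ hc hm hm1)
    simpa using this

/-- `φ ↦ Σ φ(n k) (n k)*`. -/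
noncomputable def En {κ : Type} [Fintype κ] (n : κ → Op H) : LM H →ₗ[ℂ] Op H where
  toFun φ := ∑ k, φ (n k) * star (n k)
  map_add' φ ψ := by simp [add_mul, Finset.sum_add_distrib]
  map_smul' c φ := by simp [Finset.smul_sum]

theorem T_En {κ : Type} [Fintype κ] (n : κ → Op H) (φ : LM H) (y : Op H) (x : H) :
    T (En n) φ y x = ∑ k, φ (y * n k) (star (n k) x) := by
  simp [T_apply, En]

theorem con_mul {I J κ : Type} [Fintype I] [Fintype J] [Fintype κ] {Z : I → J → Op H}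
    (hZ : Con Z 1) {n : κ → Op H} (h : ∑ k, n k * star (n k) = 1) :
    Con (fun i (p : J × κ) => Z i p.1 * n p.2) 1 := fun ξ => by
  have := hZ fun j => ∑ k, n k (ξ (j, k))
  simp only [Fintype.sum_prod_type, ContinuousLinearMap.mul_apply, map_sum] at this ⊢
  exact this.trans (by
    rw [one_pow, one_mul, one_mul]
    exact Finset.sum_le_sum fun j _ => row_le h _)

theorem col_mul {J κ : Type} [Fintype J] [Fintype κ] {m : J → Op H}
    (hm : ∑ j, star (m j) * m j = 1) {n : κ → Op H} (h : ∑ k, n k * star (n k) = 1) :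
    ∑ p : J × κ, star (star (n p.2) * m p.1) * (star (n p.2) * m p.1) = 1 := by
  rw [Fintype.sum_prod_type, ← hm]
  refine Finset.sum_congr rfl fun j _ => ?_
  simp only [star_mul, star_star, mul_assoc, ← Finset.mul_sum]
  simp only [← mul_assoc, ← Finset.sum_mul, h, one_mul]

theorem K_En {κ : Type} [Fintype κ] {n : κ → Op H} (hn : ∀ k, n k ∈ P)
    (h : ∑ k, n k * star (n k) = 1) : K P (En n) := by
  have hc : ∀ φ β, CBd P φ β → ∀ (I J : Type) [Fintype I] [Fintype J] (Z : I → J → Op H),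
      (∀ i j, Z i j ∈ P) → Con Z 1 → Con (fun i j => T (En n) φ (Z i j)) β :=
    fun φ β hφ I J _ _ Z hZ hc ξ => by
      have := hφ.2 I (J × κ) _ (fun i p => mul_mem (hZ i p.1) (hn p.2)) (con_mul hc h)
        fun p => star (n p.2) (ξ p.1)
      simp only [Fintype.sum_prod_type, col_one (m := fun k => star (n k)) (by simpa using h)]
        at this
      simpa only [T_En] using this
  have h3 : IsE P (CBd P) ∅ 1 1 (En n) := by
    refine ⟨fun φ β hφ => ⟨sum_mem fun k _ => mul_mem (hφ.1.2 _ (hn k)).1 (star_mem (hn k)), ?_⟩,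
      fun φ β hφ a ha => ?_, fun _ _ _ _ ha => absurd ha (Set.notMem_empty _), h⟩
    · rw [one_mul]
      refine ContinuousLinearMap.opNorm_le_bound _ hφ.1.1 fun x => ?_
      have := hc φ β hφ Unit Unit (fun _ _ => 1) (fun _ _ => one_mem P) (fun ξ => by simp)
        fun _ => x
      simp only [Finset.univ_unique, Finset.sum_singleton, T_one, ← mul_pow] at this
      exact (pow_le_pow_iff_left₀ (norm_nonneg _) (mul_nonneg hφ.1.1 (norm_nonneg _))
        two_ne_zero).1 this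
    · simp [En, Finset.mul_sum, mul_assoc]
  refine ⟨h3, fun φ β hφ => ⟨bd_T h3 hφ, hc φ β hφ⟩, fun φ β hφ ζ r hr I J _ _ Z m hZ hc hm hm1 => ?_⟩
  have := hr I (J × κ) _ (fun p => star (n p.2) * m p.1) (fun i p => mul_mem (hZ i p.1) (hn p.2))
    (con_mul hc h) (fun p => mul_mem (star_mem (hn p.2)) (hm p.1)) (col_mul hm1 h)
  simpa only [T_En, Fintype.sum_prod_type, ContinuousLinearMap.mul_apply] using this

/-- `1/√2`. -/
noncomputable def s2 : ℝ := (√2)⁻¹

theorem s2_mul : s2 * s2 = 1 / 2 := by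
  rw [s2, ← mul_inv, Real.mul_self_sqrt zero_le_two, one_div]

theorem par (x y : H) : ‖s2 • (x + y)‖ ^ 2 + ‖s2 • (x - y)‖ ^ 2 = ‖x‖ ^ 2 + ‖y‖ ^ 2 := by
  have := parallelogram_law_with_norm ℂ x y
  rw [norm_smul, norm_smul, mul_pow, mul_pow, Real.norm_eq_abs, sq_abs, sq s2, s2_mul]
  nlinarith

theorem map_rsmul (φ : LM H) (c : ℝ) (x : Op H) : φ (c • x) = c • φ x := φ.map_smul_of_tower c x

/-- The gain for one finite family. -/
theorem gain_fin {κ : Type} [Fintype κ] {w : κ → Op H} (hw : ∀ k, w k ∈ P)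
    (h : ∑ k, w k * star (w k) = 1) {u : Op H} (hu : Uni P u) :
    ∃ E, K P E ∧ ∀ (ψ : LM H) (ζ : H) (r : ℝ), Pb P ψ ζ r →
      ∀ (I J : Type) [Fintype I] [Fintype J] (Z : I → J → Op H) (m : J → Op H),
      (∀ i j, Z i j ∈ P) → Con Z 1 → (∀ j, m j ∈ P) → ∑ j, star (m j) * m j = 1 →
      ∑ i, ‖∑ j, T E ψ (Z i j) (m j ζ)‖ ^ 2 +
        1 / 4 * ∑ j, ∑ k, ‖(ψ 1 - ψ u * star u) (star (w k) (m j ζ))‖ ^ 2 ≤ r := by
  classical
  let g : Bool → Op H := fun e => s2 • cond e u 1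
  let g' : Bool → Op H := fun e => s2 • cond e (-u) 1
  let n : κ × Bool → Op H := fun p => w p.1 * g p.2
  have gP : ∀ e, g e ∈ P := fun e => rsmul_mem _ (by cases e; exacts [one_mem P, hu.1])
  have g'P : ∀ e, g' e ∈ P := fun e => rsmul_mem _ (by cases e; exacts [one_mem P, neg_mem hu.1])
  have hn : ∀ p, n p ∈ P := fun p => mul_mem (hw p.1) (gP p.2)
  have hg : ∑ e, g e * star (g e) = 1 := by
    simp only [g, Fintype.sum_bool, cond_true, cond_false, star_smul, star_trivial,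
      smul_mul_smul_comm, s2_mul, hu.2.2, star_one, mul_one, ← add_smul]
    norm_num
  have hn1 : ∑ p, n p * star (n p) = 1 := by
    rw [Fintype.sum_prod_type, ← h]
    refine Finset.sum_congr rfl fun k _ => ?_
    simp only [n, star_mul, mul_assoc, ← Finset.mul_sum]
    simp only [← mul_assoc, ← Finset.sum_mul, hg, one_mul]
  have hun : ∀ x, ‖u x‖ ^ 2 = ‖x‖ ^ 2 := fun x => by
    rw [norm_sq_eq, hu.2.1, ← inner_self_eq_norm_sq (𝕜 := ℂ)]; rfl
  refine ⟨En n, K_En hn hn1, fun ψ ζ r hr I J _ _ Z m hZ hc hm hm1 => ?_⟩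
  let Z' : I ⊕ (J × κ) → J × (κ × Bool) → Op H := Sum.elim (fun i p => Z i p.1 * n p.2)
    fun q p => if q = (p.1, p.2.1) then g' p.2.2 else 0
  have key : ∀ (φ : LM H) (ξ : J × (κ × Bool) → H) (q : J × κ),
      ∑ p, φ (Z' (Sum.inr q) p) (ξ p) = ∑ e, φ (g' e) (ξ (q.1, q.2, e)) := fun φ ξ q => by
    rw [Fintype.sum_prod_type, Finset.sum_eq_single q.1, Fintype.sum_prod_type,
      Finset.sum_eq_single q.2]
    · simp [Z']
    · intro k _ hk
      refine Finset.sum_eq_zero fun e _ => ?_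
      simp only [Z', Sum.elim_inr]
      rw [if_neg fun h => hk (congrArg Prod.snd h).symm]; simp
    · simp
    · intro j _ hj
      refine Finset.sum_eq_zero fun e _ => ?_
      simp only [Z', Sum.elim_inr]
      rw [if_neg fun h => hj (congrArg Prod.fst h).symm]; simp
    · simp
  have hc' : Con Z' 1 := fun ξ => by
    have a1 := con_mul hc h fun q => s2 • (ξ (q.1, q.2, false) + u (ξ (q.1, q.2, true)))
    have a2 := key LinearMap.id ξ
    simp only [LinearMap.id_apply] at a2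
    rw [Fintype.sum_sum_type]
    simp only [a2]
    have a3 : ∀ i, ∑ p, Z' (Sum.inl i) p (ξ p) = ∑ q : J × κ,
        (Z i q.1 * w q.2) (s2 • (ξ (q.1, q.2, false) + u (ξ (q.1, q.2, true)))) := fun i => by
      simp [Z', n, g, Fintype.sum_prod_type, add_comm]
    have a4 : ∀ q : J × κ, ∑ e, g' e (ξ (q.1, q.2, e)) =
        s2 • (ξ (q.1, q.2, false) - u (ξ (q.1, q.2, true))) := fun q => by
      simp [g', sub_eq_neg_add]
    simp only [a3, a4]
    rw [one_pow, one_mul] at a1 ⊢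
    refine (add_le_add_left a1 _).trans (le_of_eq ?_)
    rw [← Finset.sum_add_distrib]
    simp only [par, hun, Fintype.sum_prod_type, Fintype.sum_bool, add_comm]
  have := hr _ _ Z' (fun p => star (n p.2) * m p.1)
    (by
      rintro (i | q) p
      · exact mul_mem (hZ i p.1) (hn p.2)
      · simp only [Z', Sum.elim_inr]
        split_ifs
        exacts [g'P _, zero_mem P])
    hc' (fun p => mul_mem (star_mem (hn p.2)) (hm p.1)) (col_mul hm1 hn1)
  rw [Fintype.sum_sum_type] at this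
  simp only [key] at this
  refine le_trans (le_of_eq ?_) this
  congr 1
  · simp only [T_En, Z', Sum.elim_inl, Fintype.sum_prod_type, ContinuousLinearMap.mul_apply]
  · rw [Fintype.sum_prod_type, Finset.mul_sum]
    refine Finset.sum_congr rfl fun j _ => ?_
    rw [Finset.mul_sum]
    refine Finset.sum_congr rfl fun k _ => ?_
    have : ∑ e, ψ (g' e) ((star (n (k, e)) * m j) ζ) =
        (1 / 2 : ℝ) • (ψ 1 - ψ u * star u) (star (w k) (m j ζ)) := by
      simp only [n, g, g', Fintype.sum_bool, cond_true, cond_false, map_rsmul, star_mul, star_smul,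
        star_trivial, star_one, ContinuousLinearMap.mul_apply, ContinuousLinearMap.smul_apply,
        map_neg, ContinuousLinearMap.neg_apply, ContinuousLinearMap.one_apply,
        ContinuousLinearMap.map_smul_of_tower, ContinuousLinearMap.sub_apply, ← s2_mul]
      module
    rw [this, norm_smul, mul_pow]
    norm_num

theorem le_apply {a b : Op H} (h : a ≤ b) (x : H) : (⟪x, a x⟫_ℂ).re ≤ (⟪x, b x⟫_ℂ).re := by
  have := (ContinuousLinearMap.le_def a b).1 h
  have := this.re_inner_nonneg_right x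
  simp only [ContinuousLinearMap.sub_apply, inner_sub_right, map_sub] at this
  exact sub_nonneg.1 this

theorem re_self (x : H) : (⟪x, x⟫_ℂ).re = ‖x‖ ^ 2 := inner_self_eq_norm_sq (𝕜 := ℂ) x

theorem sa_star_mul (t : Op H) : IsSelfAdjoint (star t * t) := IsSelfAdjoint.star_mul_self t

theorem sp_lower (t : Op H) (d : ℝ) {x : H} (hx : sp (star t * t) d x = x) :
    d * ‖x‖ ^ 2 ≤ ‖t x‖ ^ 2 := by
  have := le_apply (smul_sp_le (sa_star_mul t) d) x
  rw [ContinuousLinearMap.mul_apply, ContinuousLinearMap.smul_apply, hx, ← norm_sq_eq,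
    ← Complex.coe_smul, inner_smul_right, Complex.re_ofReal_mul, re_self] at this
  exact this

theorem proj_norm_le {p : Op H} (hp : IsStarProjection p) (x : H) : ‖p x‖ ≤ ‖x‖ :=
  (p.le_opNorm x).trans (mul_le_of_le_one_left (norm_nonneg _) hp.norm_le)

theorem sp_upper (t : Op H) {d : ℝ} (hd : 0 ≤ d) (x : H) :
    ‖t x‖ ^ 2 ≤ 2 * (‖t‖ ^ 2 * ‖sp (star t * t) d x‖ ^ 2 + d * ‖x‖ ^ 2) := by
  set f := sp (star t * t) d with hf
  have hp : IsStarProjection (1 - f) := (sp_proj _ _).one_sub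
  have h0 : (1 - f) ((1 - f) x) = (1 - f) x := DFunLike.congr_fun hp.isIdempotentElem.eq x
  have h1 := le_apply (mul_one_sub_sp_le (sa_star_mul t) d) ((1 - f) x)
  rw [ContinuousLinearMap.mul_apply, ContinuousLinearMap.smul_apply, ← hf, h0, ← norm_sq_eq,
    ← Complex.coe_smul, inner_smul_right, Complex.re_ofReal_mul, re_self] at h1
  have h2 : ‖t x‖ ≤ ‖t (f x)‖ + ‖t ((1 - f) x)‖ := by
    refine le_trans (le_of_eq ?_) (norm_add_le _ _)
    simp
  have h3 := t.le_opNorm (f x)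
  have h4 := pow_le_pow_left₀ (norm_nonneg _) (proj_norm_le hp x) 2
  have h5 := pow_le_pow_left₀ (norm_nonneg _) h3 2
  have h6 := pow_le_pow_left₀ (norm_nonneg _) h2 2
  have h7 := mul_le_mul_of_nonneg_left h4 hd
  nlinarith [sq_nonneg (‖t (f x)‖ - ‖t ((1 - f) x)‖)]

/-- A maximal family of partial isometries with range under `f`. -/
theorem exists_family {f : Op H} (hf : IsStarProjection f) (hfP : f ∈ P) :
    ∃ (M : Set (Op H)) (v : M → Op H) (c : Op H), (∀ i, v i ∈ P ∧ PI (v i) ∧ f * v i = v i) ∧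
      (∀ i j, i ≠ j → star (v i) * v i * (star (v j) * v j) = 0) ∧
      (∀ x, HasSum (fun i => (star (v i) * v i) x) (c x)) ∧
      ∀ (J : Type) [Fintype J] (m : J → Op H), (∀ j, m j ∈ P) → ∑ j, star (m j) * m j = 1 →
        ∀ ζ, ‖f ζ‖ ^ 2 ≤ ∑ j, ‖c (m j ζ)‖ ^ 2 := by
  obtain ⟨M, hM, h1, h2⟩ := Ty.exists_max_orth
    {p | ∃ v ∈ P, PI v ∧ f * v = v ∧ star v * v = p} (by rintro _ ⟨v, -, hv, -, rfl⟩; exact hv.init)
  choose v a1 a2 a3 a4 using fun i : M => hM i.2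
  have hp : ∀ i : M, IsStarProjection i.1 := fun i => a4 i ▸ (a2 i).init
  have o : ∀ i j : M, i ≠ j → i.1 * j.1 = 0 := fun i j hij =>
    h1 i.2 j.2 fun h => hij (Subtype.ext h)
  obtain ⟨V, hV, b1, -, -, b2, -⟩ := exists_sum_pi P (fun i : M => i.1)
    (fun i => ⟨a4 i ▸ mul_mem (star_mem (a1 i)) (a1 i), pi_of_proj (hp i)⟩)
    (fun i j hij => by rw [(hp i).isSelfAdjoint.star_eq, o i j hij])
    (fun i j hij => by rw [(hp j).isSelfAdjoint.star_eq, o i j hij])
  simp only [fun i => (hp i).isSelfAdjoint.star_eq, fun i => (hp i).isIdempotentElem.eq] at b2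
  set c := star V * V with hc
  have cp : IsStarProjection c := b1.init
  have cP : c ∈ P := mul_mem (star_mem hV) hV
  have ci : ∀ i : M, i.1 * (1 - c) = 0 := fun i => by
    have := Ty.hs_single b2 i fun j hj => o j i hj
    rw [(hp i).isIdempotentElem.eq] at this
    rw [mul_sub, mul_one, Ty.proj_le cp (hp i) this, sub_self]
  have k1 : ∀ y ∈ P, f * y * (1 - c) = 0 := fun y hy => by
    by_contra hne
    obtain ⟨w, wP, w0, w1, w2, w3⟩ := exists_pi P cp.one_sub (sub_mem (one_mem P) cP) hf hfP hy hne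
    have := h2 _ ⟨w, wP, w1, w2, rfl⟩ fun p hp' => by
      rw [← proj_mul_star cp.one_sub w3, ← mul_assoc, ← mul_assoc, ci ⟨p, hp'⟩, zero_mul, zero_mul]
    exact w0 (by rw [← w1.mul_init, this, mul_zero])
  obtain ⟨z, z1, z2, z3, z4⟩ := exists_csupp P hfP
  have k2 : c * z = z := Ty.of_one_sub (z4 _ fun a ha => by
    have := congrArg star (k1 _ (star_mem ha))
    simpa only [star_mul, star_star, star_zero, cp.one_sub.isSelfAdjoint.star_eq,
      hf.isSelfAdjoint.star_eq, mul_assoc] using this)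
  refine ⟨M, v, c, fun i => ⟨a1 i, a2 i, a3 i⟩, fun i j hij => by rw [a4, a4, o i j hij],
    by simpa only [a4] using b2, fun J _ m hm hm1 ζ => ?_⟩
  calc ‖f ζ‖ ^ 2 ≤ ‖z ζ‖ ^ 2 := by
        refine pow_le_pow_left₀ (norm_nonneg _) ?_ 2
        rw [← Ty.proj_le z2 hf z3]
        exact proj_norm_le hf _
    _ = ∑ j, ‖m j (z ζ)‖ ^ 2 := (col_one hm1 _).symm
    _ ≤ _ := by
        refine Finset.sum_le_sum fun j _ => pow_le_pow_left₀ (norm_nonneg _) ?_ 2
        have : m j (z ζ) = z (c (m j ζ)) := by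
          change (m j * z) ζ = (z * c * m j) ζ
          rw [Ty.proj_le cp z2 k2, z1.2 _ (hm j)]
        rw [this]
        exact proj_norm_le z2 _

theorem gain {ψ : LM H} {β : ℝ} (hψ : CBd P ψ β) {u : Op H} (hu : Uni P u) {d : ℝ} (hd : 0 ≤ d) :
    ∃ E, K P E ∧ ∀ ζ r, Pb P ψ ζ r → Pb P (T E ψ) ζ (r - d / 4 *
      ‖sp (star (ψ 1 - ψ u * star u) * (ψ 1 - ψ u * star u)) d ζ‖ ^ 2) := by
  classical
  set t := ψ 1 - ψ u * star u with ht
  have tP : t ∈ P := sub_mem (hψ.1.2 _ (one_mem P)).1 (mul_mem (hψ.1.2 _ hu.1).1 (star_mem hu.1))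
  set f := sp (star t * t) d with hf
  obtain ⟨M, v, c, h1, h2, h3, h4⟩ := exists_family (P := P) (sp_proj (star t * t) d)
    (sp_mem (sa_star_mul t) (mul_mem (star_mem tP) tP) d)
  let p : Finset M → Op H := fun F => ∑ i ∈ F, star (v i) * v i
  have pp : ∀ F, IsStarProjection (p F) := fun F => by
    have e := star_sum_mul_sum (fun i => star (v i) * v i)
      (fun i j hij => by rw [(h1 i).2.1.init.isSelfAdjoint.star_eq, h2 i j hij]) F
    simp only [fun i => (h1 i).2.1.init.isSelfAdjoint.star_eq,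
      fun i => (h1 i).2.1.init.isIdempotentElem.eq] at e
    have e2 : star (p F) = p F := by
      simp only [p, star_sum, fun i => (h1 i).2.1.init.isSelfAdjoint.star_eq]
    refine isStarProjection_iff'.2 ⟨?_, e2⟩
    change star (p F) * p F = p F at e
    rwa [e2] at e
  have pP : ∀ F, p F ∈ P := fun F => sum_mem fun i _ => mul_mem (star_mem (h1 i).1) (h1 i).1
  have hF : ∀ F : Finset M, ∃ E, K P E ∧ ∀ (ζ : H) (r : ℝ), Pb P ψ ζ r →
      ∀ (I J : Type) [Fintype I] [Fintype J] (Z : I → J → Op H) (m : J → Op H),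
      (∀ i j, Z i j ∈ P) → Con Z 1 → (∀ j, m j ∈ P) → ∑ j, star (m j) * m j = 1 →
      ∑ i, ‖∑ j, T E ψ (Z i j) (m j ζ)‖ ^ 2 ≤ r - d / 4 * ∑ j, ‖p F (m j ζ)‖ ^ 2 := fun F => by
    obtain ⟨E, hE, hE'⟩ := gain_fin (P := P)
      (w := fun k : Option (Fin F.card) => k.elim (1 - p F) fun k => star (v (F.equivFin.symm k)))
      (by rintro (_ | k); exacts [sub_mem (one_mem P) (pP F), star_mem (h1 _).1])
      (by
        rw [Fintype.sum_option]
        simp only [Option.elim_none, Option.elim_some, star_star]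
        rw [F.equivFin.symm.sum_comp (fun i => star (v i) * v i), Finset.sum_coe_sort F
          (fun i => star (v i) * v i), (pp F).one_sub.isSelfAdjoint.star_eq,
          (pp F).one_sub.isIdempotentElem.eq]
        exact sub_add_cancel _ _) hu
    refine ⟨E, hE, fun ζ r hr I J _ _ Z m a1 a2 a3 a4 => ?_⟩
    have := hE' ψ ζ r hr I J Z m a1 a2 a3 a4
    have e : d * ∑ j, ‖p F (m j ζ)‖ ^ 2 ≤ ∑ j, ∑ k : Option (Fin F.card), ‖t (star
        (k.elim (1 - p F) fun k => star (v (F.equivFin.symm k))) (m j ζ))‖ ^ 2 := by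
      rw [Finset.mul_sum]
      refine Finset.sum_le_sum fun j _ => ?_
      rw [Fintype.sum_option]
      refine le_add_of_nonneg_of_le (sq_nonneg _) ?_
      simp only [Option.elim_some, star_star]
      rw [F.equivFin.symm.sum_comp (fun i => ‖t (v i (m j ζ))‖ ^ 2), Finset.sum_coe_sort F
          (fun i => ‖t (v i (m j ζ))‖ ^ 2), norm_sq_eq, (pp F).isSelfAdjoint.star_eq,
          (pp F).isIdempotentElem.eq, ← col_eq, Finset.mul_sum]
      exact Finset.sum_le_sum fun i _ => sp_lower t d (DFunLike.congr_fun (h1 i).2.2 _)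
    linarith
  choose E hE hE' using hF
  obtain ⟨E', k1, k2⟩ := K.lim (Ultrafilter.of (atTop : Filter (Finset M))) E hE
  refine ⟨E', k1, fun ζ r hr I J _ _ Z m a1 a2 a3 a4 => ?_⟩
  have hl : Tendsto (fun F => r - d / 4 * ∑ j, ‖p F (m j ζ)‖ ^ 2)
      (Ultrafilter.of (atTop : Filter (Finset M))) (𝓝 (r - d / 4 * ∑ j, ‖c (m j ζ)‖ ^ 2)) := by
    refine Tendsto.mono_left (Tendsto.const_sub _ (Tendsto.const_mul _
      (tendsto_finsetSum _ fun j _ => (Tendsto.norm ?_).pow 2))) (Ultrafilter.of_le _)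
    simpa [HasSum, p] using h3 (m j ζ)
  have := WLim.sum_sq_le Finset.univ
    (S := fun a i => ∑ j, T (E i) ψ (Z a j) * m j) (T := fun a => ∑ j, T E' ψ (Z a j) * m j)
    (fun a _ => WLim.sum _ fun j _ => (k2 ψ β hψ _ (a1 a j)).mul_right (m j)) (fun _ => ζ) hl
    (.of_forall fun F => by simpa using hE' F ζ r hr I J Z m a1 a2 a3 a4)
  have h5 := mul_le_mul_of_nonneg_left (h4 J m a3 a4 ζ) (show 0 ≤ d / 4 by positivity)
  simp only [ContinuousLinearMap.sum_apply, ContinuousLinearMap.mul_apply] at this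
  linarith

/-- The potential. -/
noncomputable def pot (P : VonNeumannAlgebra H) (ψ : LM H) (ζ : H) : ℝ := sInf {r | Pb P ψ ζ r}

theorem Pb.nonneg {ψ : LM H} {ζ : H} {r : ℝ} (h : Pb P ψ ζ r) : 0 ≤ r := by
  simpa using h Empty Unit (fun _ _ => 0) (fun _ => 1) (fun _ _ => zero_mem P)
    (fun ξ => by simp) (fun _ => one_mem P) (by simp)

theorem pot_le {ψ : LM H} {ζ : H} {r : ℝ} (h : Pb P ψ ζ r) : pot P ψ ζ ≤ r :=
  csInf_le ⟨0, fun _ h => Pb.nonneg h⟩ h

theorem pb_pot {ψ : LM H} {β : ℝ} (h : CBd P ψ β) (ζ : H) : Pb P ψ ζ (pot P ψ ζ) :=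
  fun I J _ _ Z m a1 a2 a3 a4 => le_csInf
    ⟨β ^ 2 * ‖ζ‖ ^ 2, fun I J _ _ Z m a1 a2 a3 a4 => by
      have := h.2 I J Z a1 a2 fun j => m j ζ
      rwa [col_one a4] at this⟩ fun r hr => hr I J Z m a1 a2 a3 a4

theorem near (S : Finset ({φ : LM H // ∃ β, CBd P φ β} × H)) {ε : ℝ} (hε : 0 < ε) :
    ∃ E, K P E ∧ ∀ q ∈ S, ∀ β, CBd P q.1.1 β → ∀ u, Uni P u →
      ‖(T E q.1.1 1 - T E q.1.1 u * star u) q.2‖ ^ 2 ≤ 2 * (16 * β ^ 2 + ‖q.2‖ ^ 2) * ε := by
  classical
  let A : Set ℝ := {x | ∃ E, K P E ∧ x = ∑ q ∈ S, pot P (T E q.1.1) q.2}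
  have hb : BddBelow A := ⟨0, by
    rintro _ ⟨E, hE, rfl⟩
    refine Finset.sum_nonneg fun q _ => ?_
    obtain ⟨β, hβ⟩ := q.1.2
    exact (pb_pot (hE.cb _ _ hβ) _).nonneg⟩
  have hn : A.Nonempty := ⟨_, _, K_En (n := fun _ : Unit => 1) (fun _ => one_mem P) (by simp), rfl⟩
  obtain ⟨_, ⟨E, hE, rfl⟩, h1⟩ := exists_lt_of_csInf_lt hn
    (lt_add_of_pos_right (sInf A) (mul_pos hε hε))
  refine ⟨E, hE, fun q hq β hβ u hu => ?_⟩
  have hψ := hE.cb _ _ hβ
  obtain ⟨E', hE', h2⟩ := gain hψ hu hε.le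
  set t := T E q.1.1 1 - T E q.1.1 u * star u with ht
  have h3 : sInf A ≤ ∑ q ∈ S, pot P (T E' (T E q.1.1)) q.2 := by
    refine csInf_le hb ⟨_, hE.comp hE', Finset.sum_congr rfl fun q _ => ?_⟩
    have : T (E' ∘ₗ T E) q.1.1 = T E' (T E q.1.1) := by
      ext1 y
      simp only [T_apply, LinearMap.comp_apply, T_comp]
    rw [this]
  have h4 := pot_le (h2 q.2 _ (pb_pot hψ q.2))
  have h5 : ∑ q ∈ S.erase q, pot P (T E' (T E q.1.1)) q.2 ≤
      ∑ q ∈ S.erase q, pot P (T E q.1.1) q.2 := Finset.sum_le_sum fun q _ => by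
    obtain ⟨β, hβ⟩ := q.1.2
    exact pot_le (hE'.pb _ _ (hE.cb _ _ hβ) _ _ (pb_pot (hE.cb _ _ hβ) _))
  rw [← Finset.add_sum_erase _ _ hq] at h1 h3
  have h6 : ‖sp (star t * t) ε q.2‖ ^ 2 ≤ 4 * ε := by
    refine le_of_mul_le_mul_left ?_ hε
    linarith
  have hu1 : ‖u‖ ≤ 1 := (pi_of_init (hu.2.1 ▸ IsStarProjection.one _)).norm_le
  have h7 : ‖t‖ ≤ 2 * β := by
    have a1 := (hψ.1.2 _ (one_mem P)).2
    have a2 := (hψ.1.2 _ hu.1).2
    have a3 : ‖(1 : Op H)‖ ≤ 1 := ContinuousLinearMap.norm_id_le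
    have a4 := norm_mul_le (T E q.1.1 u) (star u)
    rw [norm_star] at a4
    have a5 := norm_sub_le (T E q.1.1 1) (T E q.1.1 u * star u)
    have := hβ.1.1
    nlinarith [norm_nonneg (T E q.1.1 u), norm_nonneg u]
  have h8 := pow_le_pow_left₀ (norm_nonneg _) h7 2
  have h9 := mul_le_mul h8 h6 (sq_nonneg _) (sq_nonneg _)
  have := sp_upper t hε.le q.2
  nlinarith

end E

open E in
theorem exists_Ecb (P : VonNeumannAlgebra H) : ∃ E, IsE P (CBd P) P 1 1 E := by
  classical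
  choose E h1 h2 using fun i : Finset ({φ : LM H // ∃ β, CBd P φ β} × H) × ℕ =>
    near i.1 (ε := 1 / ((i.2 : ℝ) + 1)) (by positivity)
  obtain ⟨E', h⟩ := isE_of_approx (B := {u | Uni P u}) (cls_cbd P) (fun a ha => ha.1)
    (Ultrafilter.of atTop) E (fun i => (h1 i).isE) Set.univ
    (fun t _ h => by ext x; exact h x trivial) fun φ β hφ u hu ξ _ => by
      refine Tendsto.mono_left ?_ (Ultrafilter.of_le _)
      rw [tendsto_zero_iff_norm_tendsto_zero]
      have t1 : Tendsto (fun i : Finset ({φ : LM H // ∃ β, CBd P φ β} × H) × ℕ =>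
          √(2 * (16 * β ^ 2 + ‖u ξ‖ ^ 2) * (1 / ((i.2 : ℝ) + 1)))) atTop (𝓝 0) := by
        have t0 : Tendsto (fun i : Finset ({φ : LM H // ∃ β, CBd P φ β} × H) × ℕ => i.2)
            atTop atTop := by
          rw [← prod_atTop_atTop_eq]; exact tendsto_snd
        have := ((tendsto_one_div_add_atTop_nhds_zero_nat (𝕜 := ℝ)).comp t0).const_mul
          (2 * (16 * β ^ 2 + ‖u ξ‖ ^ 2))
        simpa using this.sqrt
      refine squeeze_zero' (.of_forall fun _ => norm_nonneg _) ?_ t1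
      filter_upwards [eventually_ge_atTop (({(⟨φ, β, hφ⟩, u ξ)}, 0) :
        Finset ({φ : LM H // ∃ β, CBd P φ β} × H) × ℕ)] with i hi
      have := h2 i _ (hi.1 (Finset.mem_singleton_self _)) β hφ u hu
      refine Real.le_sqrt_of_sq_le (le_of_eq_of_le ?_ this)
      have e : star u (u ξ) = ξ := DFunLike.congr_fun hu.2.1 ξ
      rw [T_one]
      simp only [T_apply, ContinuousLinearMap.sub_apply, ContinuousLinearMap.mul_apply, e]
      rw [norm_sub_rev]
  exact ⟨E', h.of_uni⟩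

end Crest.Agent.R121
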