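import Crest.Agent.R121.Lim
import Crest.Agent.R121.H7.Fin

/-! Task 121-J: averaging bounded maps, type II₁. -/

set_option autoImplicit false
set_option linter.unusedSectionVars false
set_option linter.unusedVariables false

open scoped InnerProductSpace ComplexOrder
open Filter Topology

namespace Crest.Agent.R121
open Crest.Agent.R124

variable {H : Type*} [NormedAddCommGroup H] [InnerProductSpace ℂ H] [CompleteSpace H]

open Tc in
theorem almost_trace' (P : VonNeumannAlgebra H) (hP : FinProj P 1) {y : Op H}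
    (hy : Cen P y) (hyp : IsStarProjection y) (hy0 : y ≠ 0) :
    ∃ (ψ : Op H →ₗ[ℝ] ℝ) (ζ : H), (∀ a, 0 ≤ a → 0 ≤ ψ a) ∧ ζ ≠ 0 ∧ y ζ = ζ ∧
      (∀ a, ‖a ζ‖ ^ 2 ≤ ψ (star a * a)) ∧ ∀ a ∈ P, ψ (star a * a) ≤ (1 + 1) * ψ (a * star a) := by
  obtain ⟨x, hx⟩ : ∃ x, y x ≠ 0 := by
    by_contra hc
    push Not at hc
    exact hy0 (ContinuousLinearMap.ext hc)
  have hξ : y (y x) = y x := DFunLike.congr_fun hyp.isIdempotentElem.eq x
  generalize y x = ξ at *
  obtain ⟨e₀, h0P, h0, h1, h2⟩ := exists_cyc P ξ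
  obtain ⟨e, heP, he, he0, h3, h4⟩ := local_pi hP hx h0P h0 h1 h2 one_pos
  obtain ⟨ι, _, w, z, hz, hz0, hw, hsum⟩ := finite_cover hP heP he he0
  have h6 : e * e₀ = e := by
    simpa [he.isSelfAdjoint.star_eq] using star_mul_proj h0 h3
  let ψ : (H →L[ℂ] H) →ₗ[ℝ] ℝ :=
    ∑ i, vs ξ ∘ₗ LinearMap.mulLeft ℝ (star (w i)) ∘ₗ LinearMap.mulRight ℝ (w i)
  have hψ : ∀ a, ψ a = ∑ i, vs ξ (star (w i) * (a * w i)) := fun a => by
    simp [ψ]
  have key : ∀ a ∈ P, ψ (star a * a) =
      ∑ i, ∑ j, vs ξ (star (star (w j) * a * w i) * (star (w j) * a * w i)) := fun a ha => by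
    rw [hψ]
    refine Finset.sum_congr rfl fun i _ => ?_
    rw [← map_sum]
    congr 1
    have : ∀ j, star (star (w j) * a * w i) * (star (w j) * a * w i) =
        star (w i) * (star a * (w j * star (w j) * (a * w i))) := fun j => by
      simp only [star_mul, star_star, mul_assoc]
    simp only [this, ← Finset.mul_sum, ← Finset.sum_mul, hsum]
    rw [← mul_assoc z, hz.2 a ha, mul_assoc a, (hw i).2.2, mul_assoc]
  obtain ⟨i, hi⟩ : ∃ i, w i ≠ 0 := by
    by_contra hc
    push Not at hc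
    exact hz0 (by simp [← hsum, hc])
  refine ⟨ψ, w i ξ, fun a ha => ?_, fun h => hi ?_, ?_, fun a => ?_, fun a ha => ?_⟩
  · rw [hψ]
    exact Finset.sum_nonneg fun i _ => vs_nonneg ξ (by
      rw [← mul_assoc]; exact star_left_conjugate_nonneg ha _)
  · rw [← h2 _ (hw i).1 h, ← (hw i).2.1, mul_assoc, h6]
  · rw [← mul_apply_eq_comp, hy.2 _ (hw i).1, mul_apply_eq_comp, hξ]
  · have : ∀ j, vs ξ (star (w j) * (star a * a * w j)) = ‖a (w j ξ)‖ ^ 2 := fun j => by
      rw [mul_assoc, ← mul_assoc, ← star_mul, vs_star_mul]; rfl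
    simp only [hψ, this]
    exact Finset.single_le_sum (f := fun j => ‖a (w j ξ)‖ ^ 2) (fun _ _ => by positivity)
      (Finset.mem_univ i)
  · have h8 := key (star a) (star_mem ha)
    rw [star_star] at h8
    rw [key a ha, h8, Finset.sum_comm]
    simp only [Finset.mul_sum]
    refine Finset.sum_le_sum fun j _ => Finset.sum_le_sum fun i _ => ?_
    have := local_trace (fun a => vs_nonneg ξ) he (by positivity) h4
      (x := star (w j) * a * w i) (mul_mem (mul_mem (star_mem (hw j).1) ha) (hw i).1)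
      (by rw [← mul_assoc, ← mul_assoc, proj_mul_star he (hw j).2.1])
      (by rw [mul_assoc, (hw i).2.1])
    simpa only [star_mul, star_star, mul_assoc] using this

/-- Vectors dominated by the trace separate the algebra. -/
theorem faith {P : VonNeumannAlgebra H} (hf : FinProj P 1) (T : CTr P) {t : Op H} (ht : t ∈ P)
    (h : ∀ ξ : H, (∃ C : ℝ, ∀ a ∈ P, ‖a ξ‖ ^ 2 ≤ C * ‖T.τ (star a * a)‖) → t ξ = 0) : t = 0 := by
  obtain ⟨z, hz, hzp, h1, h2⟩ := exists_csupp P (star_mem ht)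
  by_contra h0
  obtain ⟨ψ, ζ, p0, p1, p2, p3, p4⟩ := almost_trace' P hf hz hzp fun h => h0 (by
    rw [h, zero_mul] at h1; simpa using h1.symm)
  have ψ1 : 0 ≤ ψ 1 := p0 _ zero_le_one
  have d1 : ∀ a ∈ P, ‖a ζ‖ ^ 2 ≤ 2 * ψ 1 * ‖T.τ (star a * a)‖ := fun a ha => by
    refine le_of_forall_pos_le_add fun ε hε => ?_
    have hb := mul_mem (star_mem ha) ha
    obtain ⟨n, u, hu, hd⟩ := T.dix {star a * a} (by simpa using hb) (ε / (2 * ψ 1 + 1))
      (by positivity)
    have hA : Tc.IsAv P fun b => av fun j => u j * b * star (u j) := ⟨n, u, hu, fun _ => rfl⟩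
    have a1 := (hA.psi p0 (by norm_num) p4 hb (star_mul_self_nonneg a)).2
    have a2 := hd _ (Finset.mem_singleton_self _)
    have a3 := Tc.pos_mono p0 (Dix.le_norm (hA.nonneg (star_mul_self_nonneg a)).isSelfAdjoint
      ((norm_le_norm_add_norm_sub' _ _).trans (add_le_add le_rfl a2))).2
    rw [map_smul, smul_eq_mul] at a3
    have a4 : 2 * ψ 1 * (ε / (2 * ψ 1 + 1)) ≤ ε := by
      rw [← mul_div_assoc, div_le_iff₀ (by positivity)]; nlinarith
    nlinarith [p3 a]
  have d2 : ∀ b ∈ P, t (b ζ) = 0 := fun b hb => h _ ⟨2 * ψ 1 * ‖b‖ ^ 2, fun a ha => by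
    refine (d1 _ (mul_mem ha hb)).trans ?_
    have m : ∀ {c}, c ∈ P → a * c * star a ∈ P := fun hc => mul_mem (mul_mem ha hc) (star_mem ha)
    have hbb := mul_mem hb (star_mem hb)
    have a1 := T.mono (m hbb) (m (rsmul_mem _ (one_mem P))) (star_right_conjugate_le_conjugate
      (Dix.le_norm (IsSelfAdjoint.mul_star_self b) (r := ‖b‖ ^ 2)
        (by rw [CStarRing.norm_self_mul_star, sq])).2 a)
    have a2 := CStarAlgebra.norm_le_norm_of_nonneg_of_le (T.nonneg _ (m hbb)
      (star_right_conjugate_nonneg (mul_star_self_nonneg b) a)) a1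
    rw [mul_smul_comm, smul_mul_assoc, mul_one, T.map_rsmul, norm_smul,
      Real.norm_of_nonneg (by positivity), T.comm _ ha _ (star_mem ha)] at a2
    rw [T.comm _ (star_mem (mul_mem ha hb)) _ (mul_mem ha hb), star_mul, mul_assoc a,
      ← mul_assoc b, ← mul_assoc a, mul_assoc _ (‖b‖ ^ 2)]
    exact mul_le_mul_of_nonneg_left a2 (by positivity)⟩
  have d3 := h2 ((innerSL ℂ ζ).smulRight ζ) fun a ha => by
    ext x
    have : ⟪ζ, a (star t x)⟫_ℂ = 0 := by
      rw [← ContinuousLinearMap.adjoint_inner_left, ContinuousLinearMap.star_eq_adjoint,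
        ContinuousLinearMap.adjoint_inner_right, ← ContinuousLinearMap.star_eq_adjoint,
        d2 _ (star_mem ha), inner_zero_left]
    simp [this]
  have d4 := DFunLike.congr_fun d3 ζ
  simp [p2, p1] at d4

namespace H7

/-- Averaging of a map over a law. -/
noncomputable def avg (lam : Op H →₀ ℝ) (g : LM H) : LM H where
  toFun x := Ex lam fun u => star u * g (u * x)
  map_add' x y := by simp only [mul_add, map_add, Ex_add]
  map_smul' c x := by simp only [mul_smul_comm, map_smul, Ex_csmul, RingHom.id_apply]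

theorem Bd.avg {P : VonNeumannAlgebra H} {lam : Op H →₀ ℝ} (hl : ULaw P lam) {g : LM H}
    (hg : Bd P g) : Bd P (avg lam g) :=
  ⟨fun x hx => Ex_memP fun u hu => mul_mem (hl.uni u hu).star.1
    (hg.mem _ (mul_mem (hl.uni u hu).1 hx)), fun {x} hx => hl.toIsLaw.norm_le fun u hu =>
      ((hl.uni u hu).star.norm_mul_le _).trans ((hg.le (mul_mem (hl.uni u hu).1 hx)).trans
        ((hl.uni u hu).norm_mul_le x))⟩

theorem harm_avg {P : VonNeumannAlgebra H} {ν : Op H →₀ ℝ} (hν : ULaw P ν) {g : LM H}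
    (hg : Bd P g) (N : ℕ) : Harm P ν (2 / (N + 1)) (avg (Wav ν 0 N) g) := fun x hx => by
  have e1 : Ex ν (fun s => star s * avg (Wav ν 0 N) g (s * x)) =
      av fun j : Fin (N + 1) => avg (W ν (j + 1)) g x := by
    change Ex ν (fun s => star s * Ex _ _) = av fun j : Fin (N + 1) => Ex _ _
    simp only [Wav, Ex_av_law, mul_av, Ex_av, zero_add, Ex_W_succ', mul_Ex, star_mul, mul_assoc]
    exact congrArg av (funext fun j => Ex_comm _ _ _)
  have e2 : avg (Wav ν 0 N) g x = av fun j : Fin (N + 1) => avg (W ν j) g x := by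
    change Ex _ _ = av fun j : Fin (N + 1) => Ex _ _
    simp only [Wav, Ex_av_law, zero_add]
  rw [e1, e2, ← av_sub, av, Fintype.card_fin, Fin.sum_univ_eq_sum_range
    (fun j => avg (W ν (j + 1)) g x - avg (W ν j) g x),
    Finset.sum_range_sub (fun j => avg (W ν j) g x)]
  refine (nrs (by positivity) ((norm_sub_le _ _).trans (add_le_add ((hg.avg (hν.W _)).le hx)
    ((hg.avg (hν.W _)).le hx)))).trans (le_of_eq ?_)
  push_cast; ring

theorem core' {P : VonNeumannAlgebra H} (hP : NoAbel P) (T : CTr P) (S : Finset (Sym0 P T.toTr))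
    {ε : ℝ} (hε : 0 < ε) : ∃ lam, ULaw P lam ∧ ∀ g, Bd P g → ∀ σ ∈ S,
      ‖T.τ (star (avg lam g σ - σ * avg lam g 1) * (avg lam g σ - σ * avg lam g 1))‖ ≤ ε := by
  classical
  obtain ⟨ν, η, h1, h2, h3⟩ := core hP T (S.image Subtype.val) ε hε fun σ hσ => by
    obtain ⟨s, -, rfl⟩ := Finset.mem_image.1 hσ
    exact s.2
  obtain ⟨N, hN⟩ := exists_nat_gt (2 / η)
  refine ⟨Wav ν 0 N, h1.Wav _ _, fun g hg σ hσ => h3 _ (hg.avg (h1.Wav _ _))
    ((harm_avg h1 hg N).mono ?_) _ (Finset.mem_image_of_mem _ hσ)⟩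
  rw [div_lt_iff₀ h2] at hN
  rw [div_le_iff₀ (by positivity)]
  nlinarith

/-- The averaging operator of a law. -/
noncomputable def El (lam : Op H →₀ ℝ) : LM H →ₗ[ℂ] Op H where
  toFun φ := Ex lam fun u => φ (star u) * u
  map_add' φ ψ := by simp only [LinearMap.add_apply, add_mul, Ex_add]
  map_smul' c φ := by simp only [LinearMap.smul_apply, smul_mul_assoc, Ex_csmul, RingHom.id_apply]

theorem isE_El {P : VonNeumannAlgebra H} {lam : Op H →₀ ℝ} (hl : ULaw P lam) :
    IsE P (R121.Bd P) ∅ 1 2 (El lam) := by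
  refine ⟨fun φ β h => ⟨Ex_memP fun u hu => mul_mem (h.2 _ (hl.uni u hu).star.1).1 (hl.uni u hu).1,
    hl.toIsLaw.norm_le fun u hu => ?_⟩, fun φ β _ a _ => ?_, by simp, ?_⟩
  · have hu := hl.uni u hu
    have := mul_le_mul_of_nonneg_left hu.star.norm_le h.1
    linarith [hu.norm_mul_le' (φ (star u)), (h.2 _ hu.star.1).2, h.1]
  · change Ex _ _ = a * Ex _ _
    rw [mul_Ex]
    exact Ex_congr fun u _ => mul_assoc _ _ _
  · exact (Ex_congr fun u hu => (hl.uni u hu).2.1).trans (hl.toIsLaw.const _)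

/-- Mirror image of a map. -/
noncomputable def mir (c : ℝ) (φ : LM H) : LM H where
  toFun x := c • star (φ (star x))
  map_add' x y := by simp only [star_add, map_add, smul_add]
  map_smul' a x := by simp only [star_smul, map_smul, star_star, RingHom.id_apply, smul_comm c a]

theorem exists_E0 {P : VonNeumannAlgebra H} (hf : FinProj P 1) (hP : NoAbel P) (T : CTr P) :
    ∃ E, IsE P (R121.Bd P) (Sym0 P T.toTr) 1 2 E := by
  classical
  choose lam h1 h2 using fun i : Finset (Sym0 P T.toTr) × ℕ =>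
    core' hP T i.1 (show 0 < 1 / ((i.2 : ℝ) + 1) by positivity)
  refine isE_of_approx (cls_bd P) (fun a ha => ha.1) (Ultrafilter.of atTop) (fun i => El (lam i))
    (fun i => isE_El (h1 i)) {ξ | ∃ C : ℝ, ∀ a ∈ P, ‖a ξ‖ ^ 2 ≤ C * ‖T.τ (star a * a)‖}
    (fun t ht h => faith hf T ht h) fun φ β hφ σ hσ ξ ⟨C, hC⟩ => ?_
  refine Tendsto.mono_left ?_ (Ultrafilter.of_le _)
  have β0 : 0 < β + 1 := by linarith [hφ.1]
  have hg : Bd P (mir (β + 1)⁻¹ φ) := ⟨fun x hx => rsmul_mem _ (star_mem (hφ.2 _ (star_mem hx)).1),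
    fun {x} hx => (nrs (by positivity) (nst (hφ.2 _ (star_mem hx)).2)).trans (by
      rw [norm_star, inv_mul_le_iff₀ β0]; nlinarith [norm_nonneg x])⟩
  have key : ∀ i : Finset (Sym0 P T.toTr) × ℕ, ⟨σ, hσ⟩ ∈ i.1 →
      ‖(El (lam i) (φ ∘ₗ Lm σ) - El (lam i) φ * σ) ξ‖ ≤
        (β + 1) * √(|C| * (1 / ((i.2 : ℝ) + 1))) := fun i hi => by
    have a1 := h2 i _ hg _ hi
    have a2 := hg.avg (h1 i)
    set D := avg (lam i) (mir (β + 1)⁻¹ φ) σ - σ * avg (lam i) (mir (β + 1)⁻¹ φ) 1 with hD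
    have hDP : D ∈ P := sub_mem (a2.mem _ hσ.1) (mul_mem hσ.1 (a2.mem _ (one_mem P)))
    have e : El (lam i) (φ ∘ₗ Lm σ) - El (lam i) φ * σ = (β + 1) • star D := by
      change Ex _ (fun u => φ (σ * star u) * u) - Ex _ _ * σ =
        (β + 1) • star (Ex _ (fun u => star u * (β + 1)⁻¹ • star (φ (star (u * σ)))) -
          σ * Ex _ fun u => star u * (β + 1)⁻¹ • star (φ (star (u * 1))))
      simp only [mul_smul_comm, Ex_rsmul, ← smul_sub, star_smul, star_trivial, smul_smul,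
        mul_inv_cancel₀ β0.ne', one_smul, star_sub, star_mul, star_Ex, star_star, hσ.2.1, mul_one]
    have a3 := hC _ (star_mem hDP)
    rw [star_star, T.comm _ hDP _ (star_mem hDP)] at a3
    rw [e, smul_apply, norm_smul, Real.norm_of_nonneg β0.le]
    refine mul_le_mul_of_nonneg_left (Real.le_sqrt_of_sq_le (a3.trans ?_)) β0.le
    exact mul_le_mul (le_abs_self C) a1 (norm_nonneg _) (abs_nonneg _)
  have lim : Tendsto (fun i : Finset (Sym0 P T.toTr) × ℕ =>
      (β + 1) * √(|C| * (1 / ((i.2 : ℝ) + 1)))) atTop (𝓝 0) := by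
    have := ((tendsto_one_div_add_atTop_nhds_zero_nat (𝕜 := ℝ)).const_mul |C|).sqrt.const_mul
      (β + 1)
    rw [mul_zero, Real.sqrt_zero, mul_zero] at this
    exact this.comp (by rw [← prod_atTop_atTop_eq]; exact tendsto_snd)
  refine squeeze_zero_norm' ((eventually_ge_atTop ({⟨σ, hσ⟩}, 0)).mono fun i hi =>
    key i (hi.1 (Finset.mem_singleton_self _))) lim

end H7

theorem exists_E_II1 (P : VonNeumannAlgebra H) (hf : FinProj P 1) (hP : NoAbel P) :
    ∃ E, IsE P (Bd P) P 1 2 E := by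
  obtain ⟨T⟩ := exists_ctr P hf
  obtain ⟨E, hE⟩ := H7.exists_E0 hf hP T
  refine ⟨E, hE.bd, hE.left, fun φ β hφ x hx => ?_, hE.id⟩
  let R : Op H → Prop := fun a => ∀ φ β, Bd P φ β → E (φ ∘ₗ Lm a) = E φ * a
  have Radd : ∀ {a b}, R a → R b → R (a + b) := fun {a b} ha hb φ β h => by
    change E (compL φ (a + b)) = _
    rw [map_add, map_add, mul_add, ← ha φ β h, ← hb φ β h]; rfl
  have Rsmul : ∀ (c : ℂ) {a}, R a → R (c • a) := fun c {a} ha φ β h => by
    change E (compL φ (c • a)) = _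
    rw [map_smul, map_smul, mul_smul_comm, ← ha φ β h]; rfl
  have Rmul : ∀ {a b}, a ∈ P → R a → R b → R (a * b) := fun {a b} haP ha hb φ β h => by
    rw [← mul_assoc, ← ha φ β h, ← hb _ _ ((cls_bd P).right φ β h a haP)]
    congr 1
  obtain ⟨v, hvP, hv, v0, v1⟩ := Ty.halve hP (IsStarProjection.one _) (one_mem P)
  have hvs := star_mem hvP
  have a1 : v * (star v * v) = v := hv.mul_init
  have a2 : ∀ t, v * (star v * (v * t)) = v * t := fun t => by rw [← mul_assoc, ← mul_assoc, hv]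
  have a3 : ∀ t, star v * (v * (star v * t)) = star v * t := fun t => by
    rw [← mul_assoc, ← mul_assoc, hv.init_mul]
  have S1 : ∀ w ∈ P, w * w = 0 → star w * w + w * star w = 1 → T.τ w = 0 → R (w + star w) :=
    fun w hw h0 h1 h2 φ β h => hE.right φ β h _ ⟨add_mem hw (star_mem hw), by simp [add_comm], by
      rw [add_mul, mul_add, mul_add, h0, ← star_mul, h0, star_zero, zero_add, add_zero, add_comm,
        h1], by rw [map_add, T.map_star _ hw, h2, star_zero, add_zero]⟩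
  have S2 : ∀ w ∈ P, w * w = 0 → star w * w + w * star w = 1 → T.τ w = 0 → R w ∧ R (star w) :=
    fun w hw h0 h1 h2 => by
      have b1 := S1 w hw h0 h1 h2
      have b2 := S1 (Complex.I • w) (csmul_mem _ hw) (by simp [h0]) (by
        simpa [smul_smul] using h1) (by simp [h2])
      constructor
      · convert Radd (Rsmul (1 / 2) b1) (Rsmul (-Complex.I / 2) b2) using 1
        simp only [star_smul, Complex.star_def, Complex.conj_I]
        match_scalars <;> ring_nf <;> simp only [Complex.I_sq] <;> ring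
      · convert Radd (Rsmul (1 / 2) b1) (Rsmul (Complex.I / 2) b2) using 1
        simp only [star_smul, Complex.star_def, Complex.conj_I]
        match_scalars <;> ring_nf <;> simp only [Complex.I_sq] <;> ring
  let Q : VonNeumannAlgebra H := vnOf (insert (star v * v) (P.commutant : Set (Op H)))
  have Q1 : ∀ b ∈ Q, b ∈ P ∧ star v * v * b = b * (star v * v) := fun b hb =>
    ⟨mem_of_comm P fun c hc => (mem_vnOf.1 hb c (Or.inr hc)).1, (mem_vnOf.1 hb _ (Or.inl rfl)).1⟩
  have Q2 : ∀ b ∈ P, star v * v * b * (star v * v) ∈ Q := fun b hb => mem_vnOf.2 (by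
    have hm := mul_mem (mul_mem (mul_mem hvs hvP) hb) (mul_mem hvs hvP)
    rintro c (rfl | hc)
    · simp only [star_mul, star_star, mul_assoc, a1, a2, and_self]
    · exact ⟨comm_of_mem hm hc, comm_of_mem hm (star_mem hc)⟩)
  have S3 : ∀ u ∈ Q, star u * u = 1 → u * star u = 1 → R (v * u) ∧ R (star (v * u)) :=
    fun u hu h1 h2 => by
      obtain ⟨huP, hc⟩ := Q1 u hu
      have b0 : v * u * v = 0 := by
        rw [← a1, mul_assoc v, hc, a1, mul_assoc, mul_assoc, mul_assoc, v0]; simp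
      refine S2 _ (mul_mem hvP huP) (by rw [← mul_assoc, b0, zero_mul]) ?_ ?_
      · rw [star_mul, mul_assoc, ← mul_assoc (star v), hc, ← mul_assoc, h1, one_mul, mul_assoc,
          ← mul_assoc u, h2, one_mul, v1]
      · rw [← a2, T.comm _ hvP _ (mul_mem hvs (mul_mem hvP huP)), mul_assoc, b0, mul_zero,
          map_zero]
  have S4 : ∀ b ∈ Q, R (v * b) := fun b hb φ β h =>
    Tc.span_unitary (P := Q) (f := E ∘ₗ compL φ ∘ₗ Lm v) (g := Lm (E φ) ∘ₗ Lm v)
      (fun u hu h1 h2 => (S3 u hu h1 h2).1 φ β h) hb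
  have S5 : R (star v) := by simpa using (S3 1 (one_mem Q) (by simp) (by simp)).2
  have m := fun b hb => mul_mem hvP (Q1 _ (Q2 b hb)).1
  have := Radd (Radd (Rmul hvs S5 (S4 _ (Q2 x hx))) (S4 _ (Q2 _ (mul_mem hvs hx))))
    (Radd (Rmul hvs S5 (Rmul (m _ (mul_mem hx hvP)) (S4 _ (Q2 _ (mul_mem hx hvP))) S5))
      (Rmul (m _ (mul_mem (mul_mem hvs hx) hvP)) (S4 _ (Q2 _ (mul_mem (mul_mem hvs hx) hvP))) S5))
  have e : x = (star v * v + v * star v) * x * (star v * v + v * star v) := by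
    rw [v1, one_mul, mul_one]
  simp only [mul_assoc, a1, a2, a3] at this
  rw [e]
  convert this φ β hφ using 3 <;> simp only [add_mul, mul_add, mul_assoc]

end Crest.Agent.R121
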