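import Crest.Agent.R121.TF

/-! Task 121-H: existence of laws. -/

set_option autoImplicit false
set_option linter.unusedSectionVars false
set_option linter.unusedVariables false

open scoped InnerProductSpace ComplexOrder
open Filter Topology

namespace Crest.Agent.R121
open Crest.Agent.R124

variable {H : Type*} [NormedAddCommGroup H] [InnerProductSpace ℂ H] [CompleteSpace H]

theorem exists_law {N : VonNeumannAlgebra H} (T : Tr N) (hP : Part N T) {Γ : Type} [Group Γ]
    [Fintype Γ] (d : Sym N Γ) {ρ : ℝ} (hρ : 0 < ρ) :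
    ∃ 𝓔 : Set (Op H), 𝓔.Finite ∧ (∀ f ∈ 𝓔, f ∈ N ∧ IsStarProjection f ∧ ‖T.τ f‖ ≤ ρ) ∧
      ∀ F : Set (Op H), F.Finite → (∀ a ∈ F, a ∈ N) →
        ∃ (n : ℕ) (s : Fin (n + 1) → Op H), Law N T d.T0 𝓔 F ρ n s := by
  sorry

end Crest.Agent.R121
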