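import Crest.Agent.R121.Defs

/-! Task 121-A: weak limits and averaging operators. -/

set_option autoImplicit false
set_option linter.unusedSectionVars false
set_option linter.unusedVariables false

open scoped InnerProductSpace ComplexOrder
open Filter Topology

namespace Crest.Agent.R121
open Crest.Agent.R124

variable {H : Type*} [NormedAddCommGroup H] [InnerProductSpace ℂ H] [CompleteSpace H]

section WLim
variable {ι : Type*} {U : Filter ι} {S S' : ι → Op H} {T T' : Op H}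

theorem WLim.unique [U.NeBot] (h : WLim U S T) (h' : WLim U S T') : T = T' := by
  ext y
  exact ext_inner_right ℂ fun x => tendsto_nhds_unique (h x y) (h' x y)

theorem WLim.const (T : Op H) : WLim U (fun _ => T) T := fun _ _ => tendsto_const_nhds

theorem WLim.congr (h : WLim U S T) (e : ∀ᶠ i in U, S i = S' i) : WLim U S' T := fun x y =>
  (h x y).congr' (e.mono fun i hi => by simp only [hi])

theorem WLim.add (h : WLim U S T) (h' : WLim U S' T') :
    WLim U (fun i => S i + S' i) (T + T') := fun x y => by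
  simpa only [add_apply, inner_add_left] using (h x y).add (h' x y)

theorem WLim.sub (h : WLim U S T) (h' : WLim U S' T') :
    WLim U (fun i => S i - S' i) (T - T') := fun x y => by
  simpa only [sub_apply, inner_sub_left] using (h x y).sub (h' x y)

theorem WLim.csmul (h : WLim U S T) (c : ℂ) : WLim U (fun i => c • S i) (c • T) := fun x y => by
  simpa only [smul_apply, inner_smul_left] using (h x y).const_mul _

theorem WLim.zsmul (h : WLim U S T) (c : ℤ) : WLim U (fun i => c • S i) (c • T) := by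
  simpa only [Int.cast_smul_eq_zsmul] using h.csmul (c : ℂ)

theorem WLim.sum {α : Type*} (s : Finset α) {S : α → ι → Op H} {T : α → Op H}
    (h : ∀ a ∈ s, WLim U (S a) (T a)) : WLim U (fun i => ∑ a ∈ s, S a i) (∑ a ∈ s, T a) :=
  fun x y => by
    simpa only [sum_apply, sum_inner] using tendsto_finsetSum s fun a ha => h a ha x y

theorem WLim.mul_left (h : WLim U S T) (a : Op H) : WLim U (fun i => a * S i) (a * T) :=
  fun x y => by
    simpa only [mul_apply_eq_comp, ← ContinuousLinearMap.adjoint_inner_right] using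
      h (ContinuousLinearMap.adjoint a x) y

theorem WLim.mul_right (h : WLim U S T) (a : Op H) : WLim U (fun i => S i * a) (T * a) :=
  fun x y => h x (a y)

theorem WLim.mem [U.NeBot] {P : VonNeumannAlgebra H} (h : WLim U S T) (hS : ∀ᶠ i in U, S i ∈ P) :
    T ∈ P := mem_of_comm P fun b hb =>
  ((h.mul_left b).congr (hS.mono fun i hi => comm_of_mem hi hb)).unique (h.mul_right b)

/-- Lower semicontinuity for weakly convergent vectors. -/
theorem sum_sq_le_of_weak [U.NeBot] {α : Type*} (s : Finset α) {v : α → ι → H} {v' : α → H}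
    (h : ∀ a ∈ s, Tendsto (fun i => ⟪v a i, v' a⟫_ℂ) U (𝓝 ⟪v' a, v' a⟫_ℂ)) {r : ι → ℝ} {r' : ℝ}
    (hr : Tendsto r U (𝓝 r')) (hS : ∀ᶠ i in U, ∑ a ∈ s, ‖v a i‖ ^ 2 ≤ r i) :
    ∑ a ∈ s, ‖v' a‖ ^ 2 ≤ r' := by
  have h1 : Tendsto (fun i => ∑ a ∈ s, (2 * (⟪v a i, v' a⟫_ℂ).re - ‖v' a‖ ^ 2)) U
      (𝓝 (∑ a ∈ s, (2 * (⟪v' a, v' a⟫_ℂ).re - ‖v' a‖ ^ 2))) :=
    tendsto_finsetSum s fun a ha =>
      (((Complex.continuous_re.tendsto _).comp (h a ha)).const_mul 2).sub_const _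
  have e : ∀ a, 2 * (⟪v' a, v' a⟫_ℂ).re - ‖v' a‖ ^ 2 = ‖v' a‖ ^ 2 := fun a => by
    rw [← inner_self_eq_norm_sq (𝕜 := ℂ)]; change 2 * _ - (⟪v' a, v' a⟫_ℂ).re = (⟪v' a, v' a⟫_ℂ).re
    ring
  simp only [e] at h1
  refine le_of_tendsto_of_tendsto h1 hr (hS.mono fun i hi => le_trans ?_ hi)
  refine Finset.sum_le_sum fun a _ => ?_
  have := norm_sub_sq (𝕜 := ℂ) (v a i) (v' a)
  change _ = _ - 2 * (⟪v a i, v' a⟫_ℂ).re + _ at this
  nlinarith [sq_nonneg ‖v a i - v' a‖]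

/-- Lower semicontinuity. -/
theorem WLim.sum_sq_le [U.NeBot] {α : Type*} (s : Finset α) {S : α → ι → Op H} {T : α → Op H}
    (h : ∀ a ∈ s, WLim U (S a) (T a)) (ξ : α → H) {r : ι → ℝ} {r' : ℝ} (hr : Tendsto r U (𝓝 r'))
    (hS : ∀ᶠ i in U, ∑ a ∈ s, ‖S a i (ξ a)‖ ^ 2 ≤ r i) : ∑ a ∈ s, ‖T a (ξ a)‖ ^ 2 ≤ r' :=
  sum_sq_le_of_weak s (v := fun a i => S a i (ξ a)) (fun a ha => h a ha _ _) hr hS

theorem WLim.norm_le [U.NeBot] (h : WLim U S T) {c : ℝ} (hS : ∀ᶠ i in U, ‖S i‖ ≤ c) :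
    ‖T‖ ≤ c := by
  obtain ⟨i, hi⟩ := hS.exists
  have hc : 0 ≤ c := (norm_nonneg _).trans hi
  refine T.opNorm_le_bound hc fun x => ?_
  have := WLim.sum_sq_le (Finset.univ : Finset Unit) (S := fun _ => S) (T := fun _ => T)
    (fun _ _ => h) (fun _ => x) (r' := (c * ‖x‖) ^ 2) tendsto_const_nhds (hS.mono fun i hi => by
      simpa using pow_le_pow_left₀ (norm_nonneg _) ((S i).le_of_opNorm_le hi x) 2)
  exact le_of_sq_le_sq_nn (by positivity) (by simpa using this)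

theorem WLim.con [U.NeBot] {I J : Type} [Fintype I] [Fintype J] {S : I → J → ι → Op H}
    {T : I → J → Op H} (h : ∀ a b, WLim U (S a b) (T a b)) {c : ℝ}
    (hS : ∀ᶠ i in U, Con (fun a b => S a b i) c) : Con T c := fun ξ =>
  sum_sq_le_of_weak Finset.univ (v := fun a i => ∑ b, S a b i (ξ b)) (fun a _ => by
    simpa only [sum_inner] using tendsto_finsetSum Finset.univ fun b _ => h a b _ (ξ b))
    tendsto_const_nhds (hS.mono fun i hi => hi ξ)

theorem WLim.apply_eq_zero [U.NeBot] (h : WLim U S T) {ξ : H}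
    (h0 : Tendsto (fun i => S i ξ) U (𝓝 0)) : T ξ = 0 := by
  have h1 := h0.inner (𝕜 := ℂ) (tendsto_const_nhds (x := T ξ))
  rw [inner_zero_left] at h1
  exact inner_self_eq_zero.1 (tendsto_nhds_unique (h (T ξ) ξ) h1)

end WLim

theorem exists_wlim' {ι : Type*} (U : Ultrafilter ι) (S : ι → Op H) {c : ℝ}
    (hS : ∀ i, ‖S i‖ ≤ c) : ∃ T, WLim U S T := by
  have hc : 0 < |c| + 1 := by positivity
  obtain ⟨T, hT⟩ := SimA.exists_wlim U (fun i => ((|c| + 1 : ℝ) : ℂ)⁻¹ • S i) fun i => by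
    rw [norm_smul, norm_inv, Complex.norm_real, Real.norm_of_nonneg hc.le, inv_mul_le_one₀ hc]
    linarith [hS i, le_abs_self c]
  refine ⟨_, (WLim.csmul hT ((|c| + 1 : ℝ) : ℂ)).congr (Eventually.of_forall fun i => ?_)⟩
  rw [smul_smul, mul_inv_cancel₀ (by exact_mod_cast hc.ne'), one_smul]

theorem exists_lim {V : Type*} [AddCommGroup V] [Module ℂ V] {ι : Type*} (U : Ultrafilter ι)
    (E : ι → V →ₗ[ℂ] Op H) : ∃ E' : V →ₗ[ℂ] Op H, ∀ v, (∃ c, ∀ i, ‖E i v‖ ≤ c) →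
      WLim U (fun i => E i v) (E' v) := by
  let W : Submodule ℂ V :=
    { carrier := {v | ∃ c, ∀ i, ‖E i v‖ ≤ c}
      add_mem' := by
        rintro v w ⟨c, hc⟩ ⟨d, hd⟩
        exact ⟨c + d, fun i => by
          rw [map_add]; exact (norm_add_le _ _).trans (add_le_add (hc i) (hd i))⟩
      zero_mem' := ⟨0, fun i => by simp⟩
      smul_mem' := by
        rintro z v ⟨c, hc⟩
        exact ⟨‖z‖ * c, fun i => by
          rw [map_smul, norm_smul]; exact mul_le_mul_of_nonneg_left (hc i) (norm_nonneg _)⟩ }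
  choose t ht using fun v : W => exists_wlim' U (fun i => E i v) v.2.choose_spec
  let t0 : W →ₗ[ℂ] Op H :=
    { toFun := t
      map_add' := fun v w => (ht (v + w)).unique (((ht v).add (ht w)).congr
        (Eventually.of_forall fun i => by simp))
      map_smul' := fun z v => (ht (z • v)).unique (((ht v).csmul z).congr
        (Eventually.of_forall fun i => by simp)) }
  obtain ⟨E', hE'⟩ := t0.exists_extend
  refine ⟨E', fun v hv => ?_⟩
  have : E' v = t ⟨v, hv⟩ := DFunLike.congr_fun hE' ⟨v, hv⟩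
  rw [this]
  exact ht ⟨v, hv⟩

theorem cls_bd (P : VonNeumannAlgebra H) : Cls P (Bd P) where
  zero φ h := ⟨le_rfl, fun x hx => by simp [h x hx]⟩
  id := ⟨zero_le_one, fun x hx => ⟨hx, by simp⟩⟩
  left φ β h a ha := ⟨mul_nonneg (norm_nonneg _) h.1, fun x hx =>
    ⟨mul_mem ha (h.2 x hx).1, (nm2 le_rfl (h.2 x hx).2).trans_eq (mul_assoc _ _ _).symm⟩⟩
  right φ β h a ha := ⟨mul_nonneg h.1 (norm_nonneg _), fun x hx =>
    ⟨(h.2 _ (mul_mem ha hx)).1, (h.2 _ (mul_mem ha hx)).2.trans (by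
      rw [mul_assoc]; exact mul_le_mul_of_nonneg_left (norm_mul_le _ _) h.1)⟩⟩

theorem Con.mul_left {I J : Type} [Fintype I] [Fintype J] {Z : I → J → Op H} {c : ℝ}
    (h : Con Z c) (a : Op H) : Con (fun i j => a * Z i j) (‖a‖ * c) := fun ξ => by
  rw [mul_pow, mul_assoc]
  refine le_trans ?_ (mul_le_mul_of_nonneg_left (h ξ) (sq_nonneg _))
  rw [Finset.mul_sum]
  refine Finset.sum_le_sum fun i _ => ?_
  simp only [mul_apply_eq_comp, ← map_sum, ← mul_pow]
  exact pow_le_pow_left₀ (norm_nonneg _) (a.le_opNorm _) 2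

theorem Con.smul {I J : Type} [Fintype I] [Fintype J] {Z : I → J → Op H} {c : ℝ}
    (h : Con Z c) (a : ℂ) : Con (fun i j => a • Z i j) (‖a‖ * c) := fun ξ => by
  rw [mul_pow, mul_assoc]
  refine le_trans ?_ (mul_le_mul_of_nonneg_left (h ξ) (sq_nonneg _))
  rw [Finset.mul_sum]
  refine Finset.sum_le_sum fun i _ => ?_
  simp only [smul_apply, ← Finset.smul_sum, ← mul_pow, norm_smul, le_refl]

theorem cls_cbd (P : VonNeumannAlgebra H) : Cls P (CBd P) where
  zero φ h := ⟨(cls_bd P).zero φ h, fun I J _ _ Z hZ _ ξ => by simp [h _ (hZ _ _)]⟩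
  id := ⟨(cls_bd P).id, fun I J _ _ Z hZ h => h⟩
  left φ β h a ha := ⟨(cls_bd P).left φ β h.1 a ha, fun I J _ _ Z hZ h1 =>
    (h.2 I J Z hZ h1).mul_left a⟩
  right φ β h a ha := ⟨(cls_bd P).right φ β h.1 a ha, fun I J _ _ Z hZ h1 => by
    rcases eq_or_ne a 0 with rfl | h0
    · intro ξ; simp
    have hn : (‖a‖ : ℂ) ≠ 0 := by exact_mod_cast norm_ne_zero_iff.2 h0
    have h2 := (h1.mul_left a).smul (‖a‖ : ℂ)⁻¹
    rw [mul_one, norm_inv, Complex.norm_real, norm_norm,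
      inv_mul_cancel₀ (norm_ne_zero_iff.2 h0)] at h2
    have h3 := (h.2 I J _ (fun i j => csmul_mem _ (mul_mem ha (hZ i j))) h2).smul (‖a‖ : ℂ)
    simp only [map_smul, smul_smul, mul_inv_cancel₀ hn, one_smul, Complex.norm_real,
      norm_norm] at h3
    rw [mul_comm]
    exact h3⟩

section IsE
variable {P : VonNeumannAlgebra H} {Q : LM H → ℝ → Prop} {B : Set (Op H)} {z : Op H} {C : ℝ}

theorem isE_of_approx (hQ : Cls P Q) (hB : ∀ a ∈ B, a ∈ P) {ι : Type*} (U : Ultrafilter ι)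
    (E : ι → LM H →ₗ[ℂ] Op H) (hE : ∀ i, IsE P Q ∅ z C (E i)) (D : Set H)
    (hD : ∀ t ∈ P, (∀ ξ ∈ D, t ξ = 0) → t = 0)
    (h : ∀ φ β, Q φ β → ∀ a ∈ B, ∀ ξ ∈ D,
      Tendsto (fun i => (E i (φ ∘ₗ Lm a) - E i φ * a) ξ) U (𝓝 0)) :
    ∃ E', IsE P Q B z C E' := by
  obtain ⟨E', hE'⟩ := exists_lim U E
  have key : ∀ φ β, Q φ β → WLim U (fun i => E i φ) (E' φ) := fun φ β hφ =>
    hE' φ ⟨_, fun i => ((hE i).bd φ β hφ).2⟩
  have bd : ∀ φ β, Q φ β → E' φ ∈ P ∧ ‖E' φ‖ ≤ C * β := fun φ β hφ =>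
    ⟨(key φ β hφ).mem (Eventually.of_forall fun i => ((hE i).bd φ β hφ).1),
      (key φ β hφ).norm_le (Eventually.of_forall fun i => ((hE i).bd φ β hφ).2)⟩
  refine ⟨E', bd, fun φ β hφ a ha => ?_, fun φ β hφ a ha => ?_, ?_⟩
  · exact (key _ _ (hQ.left φ β hφ a ha)).unique (((key φ β hφ).mul_left a).congr
      (Eventually.of_forall fun i => ((hE i).left φ β hφ a ha).symm))
  · have h1 := hQ.right φ β hφ a (hB a ha)
    rw [← sub_eq_zero]
    exact hD _ (sub_mem (bd _ _ h1).1 (mul_mem (bd _ _ hφ).1 (hB a ha))) fun ξ hξ =>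
      ((key _ _ h1).sub ((key φ β hφ).mul_right a)).apply_eq_zero (h φ β hφ a ha ξ hξ)
  · exact (key _ _ hQ.id).unique ((WLim.const z).congr
      (Eventually.of_forall fun i => (hE i).id.symm))

/-- `E` only sees the restriction to `P`. -/
theorem IsE.congr (hQ : Cls P Q) {E : LM H →ₗ[ℂ] Op H} (h : IsE P Q B z C E) {φ ψ : LM H}
    (e : ∀ x ∈ P, φ x = ψ x) : E φ = E ψ := by
  have := (h.bd _ _ (hQ.zero (φ - ψ) fun x hx => by simp [e x hx])).2
  rwa [mul_zero, norm_le_zero_iff, map_sub, sub_eq_zero] at this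

/-- `y ↦ φ ∘ L_y`. -/
noncomputable def compL (φ : LM H) : Op H →ₗ[ℂ] LM H where
  toFun y := φ ∘ₗ Lm y
  map_add' a b := by ext1 x; simp [add_mul]
  map_smul' c a := by ext1 x; simp

theorem IsE.span {E : LM H →ₗ[ℂ] Op H} (h : IsE P Q B z C E) :
    IsE P Q (Submodule.span ℂ B : Set (Op H)) z C E :=
  ⟨h.bd, h.left, fun φ β hφ a ha => LinearMap.eqOn_span (f := E ∘ₗ compL φ) (g := Lm (E φ))
    (fun a ha => h.right φ β hφ a ha) ha, h.id⟩

theorem IsE.mono {E : LM H →ₗ[ℂ] Op H} (h : IsE P Q B z C E) {B' : Set (Op H)} (hB : B' ⊆ B) :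
    IsE P Q B' z C E := ⟨h.bd, h.left, fun φ β hφ a ha => h.right φ β hφ a (hB ha), h.id⟩

theorem IsE.of_uni {E : LM H →ₗ[ℂ] Op H} (h : IsE P Q {u | Uni P u} z C E) :
    IsE P Q P z C E :=
  ⟨h.bd, h.left, fun φ β hφ a ha => Tc.span_unitary (P := P) (f := E ∘ₗ compL φ) (g := Lm (E φ))
    (fun u hu h1 h2 => h.right φ β hφ u ⟨hu, h1, h2⟩) ha, h.id⟩

theorem IsE.of_sa {E : LM H →ₗ[ℂ] Op H}
    (h : IsE P Q {x | x ∈ P ∧ star x = x ∧ ‖x‖ ≤ 1} z C E) : IsE P Q P z C E := by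
  refine (h.span.mono fun u hu => ?_).of_uni
  have hn : ‖u‖ ≤ 1 := Gr.norm_isom hu.2.1
  have e : u = (realPart u : Op H) + Complex.I • (imaginaryPart u : Op H) :=
    (realPart_add_I_smul_imaginaryPart u).symm
  rw [e]
  refine add_mem (Submodule.subset_span ⟨?_, (realPart u).2, (realPart.norm_le u).trans hn⟩)
    (Submodule.smul_mem _ _ (Submodule.subset_span
      ⟨?_, (imaginaryPart u).2, (imaginaryPart.norm_le u).trans hn⟩))
  · rw [realPart_apply_coe]; exact rsmul_mem _ (add_mem hu.1 (star_mem hu.1))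
  · rw [imaginaryPart_apply_coe]; exact csmul_mem _ (rsmul_mem _ (sub_mem hu.1 (star_mem hu.1)))

theorem IsE.add {E E' : LM H →ₗ[ℂ] Op H} {z' : Op H} {C' : ℝ} (h : IsE P Q B z C E)
    (h' : IsE P Q B z' C' E') : IsE P Q B (z + z') (C + C') (E + E') := by
  refine ⟨fun φ β hφ => ⟨add_mem (h.bd φ β hφ).1 (h'.bd φ β hφ).1, ?_⟩, fun φ β hφ a ha => ?_,
    fun φ β hφ a ha => ?_, ?_⟩
  · rw [add_mul]
    exact (norm_add_le _ _).trans (add_le_add (h.bd φ β hφ).2 (h'.bd φ β hφ).2)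
  · rw [LinearMap.add_apply, LinearMap.add_apply, h.left φ β hφ a ha, h'.left φ β hφ a ha, mul_add]
  · rw [LinearMap.add_apply, LinearMap.add_apply, h.right φ β hφ a ha, h'.right φ β hφ a ha,
      add_mul]
  · rw [LinearMap.add_apply, h.id, h'.id]

/-- `lift` as a linear map. -/
noncomputable def liftL (z : Op H) : Op (cS z) →ₗ[ℂ] Op H where
  toFun := lift z
  map_add' := lift_add
  map_smul' := lift_csmul

/-- `cmp` as a linear map. -/
noncomputable def cmpL (z : Op H) : Op H →ₗ[ℂ] Op (cS z) where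
  toFun := cmp z
  map_add' a b := by simp [R124.cmp]
  map_smul' c a := by simp [R124.cmp]

/-- From a central corner to the algebra: `φ ↦ lift (E (cmp ∘ φ ∘ lift))`. -/
theorem IsE.of_corner (hz : Cen P z) (hzp : IsStarProjection z) {w : Op (cS z)}
    {E : LM (cS z) →ₗ[ℂ] Op (cS z)} (h : IsE (corner P z) (Bd (corner P z)) (corner P z) w C E) :
    ∃ E', IsE P (Bd P) P (lift z w) C E' := by
  let R : LM H →ₗ[ℂ] LM (cS z) :=
    { toFun := fun φ => cmpL z ∘ₗ φ ∘ₗ liftL z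
      map_add' := fun φ ψ => by simp only [LinearMap.add_comp, LinearMap.comp_add]
      map_smul' := fun c φ => by
        simp only [LinearMap.smul_comp, LinearMap.comp_smul, RingHom.id_apply] }
  have hR : ∀ φ x, R φ x = cmp z (φ (lift z x)) := fun _ _ => rfl
  have bd : ∀ φ β, Bd P φ β → Bd (corner P z) (R φ) β := fun φ β hφ => ⟨hφ.1, fun x hx => by
    have h1 := hφ.2 _ ((mem_corner hzp hz.1).1 hx)
    rw [norm_lift] at h1
    exact ⟨cmp_mem_corner hzp hz.1 h1.1, (norm_cmp_le _).trans h1.2⟩⟩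
  have l1 : ∀ a ∈ P, ∀ T, lift z (cmp z a * T) = a * lift z T := fun a ha T => by
    rw [lift_mul, lift_cmp hzp, hz.2 a ha, mul_assoc, mul_assoc, mul_lift hzp, mul_lift hzp]
  have l2 : ∀ a ∈ P, ∀ T, lift z (T * cmp z a) = lift z T * a := fun a ha T => by
    rw [lift_mul, lift_cmp hzp, mul_assoc, ← hz.2 a ha, ← mul_assoc, ← mul_assoc,
      lift_mul_self hzp, lift_mul_self hzp]
  refine ⟨liftL z ∘ₗ E ∘ₗ R, fun φ β hφ => ?_, fun φ β hφ a ha => ?_, fun φ β hφ a ha => ?_, ?_⟩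
  · have h1 := h.bd _ _ (bd φ β hφ)
    exact ⟨(mem_corner hzp hz.1).1 h1.1, (norm_lift _).trans_le h1.2⟩
  · change lift z (E (R _)) = a * lift z (E (R φ))
    rw [← l1 a ha, ← h.left _ _ (bd φ β hφ) _ (cmp_mem_corner hzp hz.1 ha)]
    congr 2
    ext1 x
    exact Ty.cmp_hom hz hzp ha _
  · change lift z (E (R _)) = lift z (E (R φ)) * a
    rw [← l2 a ha, ← h.right _ _ (bd φ β hφ) _ (cmp_mem_corner hzp hz.1 ha)]
    congr 2
    ext1 x
    change cmp z (φ (a * lift z x)) = cmp z (φ (lift z (cmp z a * x)))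
    rw [l1 a ha]
  · change lift z (E (R _)) = _
    rw [← h.id]
    congr 2
    ext1 x
    exact cmp_lift x

end IsE

end Crest.Agent.R121
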