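import Crest.Agent.R121.Defs

/-! Task 121-C: the prism homotopy (pure algebra). -/

set_option autoImplicit false
set_option linter.unusedSectionVars false
set_option linter.unusedVariables false

open scoped InnerProductSpace ComplexOrder
open Filter Topology

namespace Crest.Agent.R121
open Crest.Agent.R124 Crest.OpAlg

namespace Pr

section Ring
variable {A : Type*} [Ring A]

/-- The Hochschild differential without its first term, up to sign. -/
def D : {n : ℕ} → ((Fin n → A) → A) → (Fin (n + 1) → A) → A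
  | 0, f, a => f Fin.elim0 * a 0
  | _ + 1, f, a => f (Fin.cons (a 0 * a 1) (Fin.tail (Fin.tail a))) -
      D (fun m => f (Fin.cons (a 0) m)) (Fin.tail a)

theorem D_zero (f : (Fin 0 → A) → A) (a : Fin 1 → A) : D f a = f Fin.elim0 * a 0 := rfl

theorem D_succ {n : ℕ} (f : (Fin (n + 1) → A) → A) (a : Fin (n + 2) → A) :
    D f a = f (Fin.cons (a 0 * a 1) (Fin.tail (Fin.tail a))) -
      D (fun m => f (Fin.cons (a 0) m)) (Fin.tail a) := rfl

theorem D_cons {n : ℕ} (f : (Fin (n + 1) → A) → A) (x : A) (b : Fin (n + 1) → A) :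
    D f (Fin.cons x b) = f (Fin.cons (x * b 0) (Fin.tail b)) - D (fun m => f (Fin.cons x m)) b := by
  rw [D_succ]; simp

theorem D_eq {n : ℕ} (f : (Fin n → A) → A) (a : Fin (n + 1) → A) :
    (∑ j : Fin n, ((-1 : ℤ) ^ (j.val + 1)) • f (mergeArgs j a)) +
      ((-1 : ℤ) ^ (n + 1)) • (f (fun i => a i.castSucc) * a (Fin.last n)) = -D f a := by
  induction n with
  | zero => simp [D_zero, Subsingleton.elim (fun i : Fin 0 => a i.castSucc) Fin.elim0]
  | succ n ih =>
    have e0 : mergeArgs 0 a = Fin.cons (a 0 * a 1) (Fin.tail (Fin.tail a)) := by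
      funext i
      refine Fin.cases ?_ (fun i => ?_) i <;> simp [mergeArgs, Fin.tail]
    have e1 : ∀ j : Fin n, mergeArgs j.succ a = Fin.cons (a 0) (mergeArgs j (Fin.tail a)) := by
      intro j
      funext i
      refine Fin.cases ?_ (fun i => ?_) i <;> simp [mergeArgs, Fin.tail]
    have e2 : (fun i : Fin (n + 1) => a i.castSucc) =
        Fin.cons (a 0) fun i : Fin n => Fin.tail a i.castSucc := by
      funext i
      refine Fin.cases ?_ (fun i => ?_) i <;> simp [Fin.tail]
    have h := ih (fun m => f (Fin.cons (a 0) m)) (Fin.tail a)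
    rw [D_succ, neg_sub, ← neg_neg (D _ _), ← h, Fin.sum_univ_succ, e0, e2]
    simp only [e1, Fin.val_succ, pow_succ _ (_ + 1), mul_neg_one, neg_smul, Finset.sum_neg_distrib]
    simp [Fin.tail]
    abel

theorem hd_eq {n : ℕ} (f : (Fin n → A) → A) (a : Fin (n + 1) → A) :
    hochschildDiff f a = a 0 * f (Fin.tail a) - D f a := by
  rw [hochschildDiff, add_assoc, D_eq, sub_eq_add_neg]; rfl

theorem D_sub {n : ℕ} (f g : (Fin n → A) → A) (a : Fin (n + 1) → A) :
    D (fun m => f m - g m) a = D f a - D g a := by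
  induction n with
  | zero => simp only [D_zero, sub_mul]
  | succ n ih => simp only [D_succ, ih]; abel

theorem D_add {n : ℕ} (f g : (Fin n → A) → A) (a : Fin (n + 1) → A) :
    D (fun m => f m + g m) a = D f a + D g a := by
  induction n with
  | zero => simp only [D_zero, add_mul]
  | succ n ih => simp only [D_succ, ih]; abel

theorem D_mul {n : ℕ} (c : A) (f : (Fin n → A) → A) (a : Fin (n + 1) → A) :
    D (fun m => c * f m) a = c * D f a := by
  induction n with
  | zero => simp only [D_zero, mul_assoc]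
  | succ n ih => simp only [D_succ, ih, mul_sub]

theorem D_D {n : ℕ} (f : (Fin n → A) → A) (a : Fin (n + 2) → A) : D (D f) a = 0 := by
  induction n with
  | zero => simp [D_succ, D_zero, mul_assoc, Fin.tail]
  | succ n ih =>
    rw [D_succ]
    simp only [D_cons, D_sub, ih]
    rw [D_succ (a := Fin.tail a)]
    simp [mul_assoc, Fin.tail]

theorem hd_hd {n : ℕ} (f : (Fin n → A) → A) : Coc (hochschildDiff f) := fun a => by
  have h := D_D f a
  rw [D_succ] at h
  rw [hd_eq, D_succ]
  simp only [hd_eq, Fin.cons_zero, Fin.tail_cons, D_sub, D_mul, mul_sub, mul_assoc]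
  rw [← h]
  simp [Fin.tail]
  abel

end Ring

variable {A : Type*} [NormedRing A] [NormedAlgebra ℂ A]

/-- Average. -/
noncomputable def cav {ι : Type*} [Fintype ι] (f : ι → A) : A := (Fintype.card ι : ℂ)⁻¹ • ∑ i, f i

section
variable {ι : Type*} [Fintype ι]

theorem cav_sub (f g : ι → A) : cav (fun i => f i - g i) = cav f - cav g := by
  simp [cav, smul_sub]

theorem cav_add (f g : ι → A) : cav (fun i => f i + g i) = cav f + cav g := by
  simp [cav, Finset.sum_add_distrib]

theorem cav_smul (c : ℂ) (f : ι → A) : cav (fun i => c • f i) = c • cav f := by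
  simp [cav, ← Finset.smul_sum, smul_comm c]

theorem cav_const [Nonempty ι] (v : A) : cav (fun _ : ι => v) = v := by
  have : (Fintype.card ι : ℂ) ≠ 0 := by exact_mod_cast Fintype.card_ne_zero
  simp [cav, ← Nat.cast_smul_eq_nsmul ℂ, smul_smul, this]

theorem mul_cav (c : A) (f : ι → A) : c * cav f = cav fun i => c * f i := by
  simp [cav, Finset.mul_sum]

theorem cav_mul (c : A) (f : ι → A) : cav f * c = cav fun i => f i * c := by
  simp [cav, Finset.sum_mul]

theorem cav_cons {n : ℕ} (f : (Fin (n + 1) → ι) → A) :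
    cav f = cav fun i => cav fun p : Fin n → ι => f (Fin.cons i p) := by
  classical
  simp only [cav, ← Finset.smul_sum, smul_smul]
  rw [← (Fin.consEquiv fun _ : Fin (n + 1) => ι).sum_comp, Fintype.sum_prod_type]
  simp [pow_succ, Fin.consEquiv]

theorem D_cav {n : ℕ} (f : ι → (Fin n → A) → A) (a : Fin (n + 1) → A) :
    D (fun m => cav fun i => f i m) a = cav fun i => D (f i) a := by
  induction n with
  | zero => simp only [D_zero, cav_mul]
  | succ n ih => simp only [D_succ, ih, cav_sub]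

end

/-- Bounded multilinear functions. -/
def ML (n : ℕ) (C : ℝ) (g : (Fin n → A) → A) : Prop := ∃ G : CM A n, ‖G‖ ≤ C ∧ ⇑G = g

theorem ML.of_cons {n : ℕ} {C : ℝ} (hC : 0 ≤ C) (g : A → (Fin n → A) → A)
    (h1 : ∀ x y m, g (x + y) m = g x m + g y m) (h2 : ∀ (c : ℂ) x m, g (c • x) m = c • g x m)
    (h : ∀ x, ML n (C * ‖x‖) (g x)) : ML (n + 1) C fun a => g (a 0) (Fin.tail a) := by
  choose G hG hG' using h
  let L : A →ₗ[ℂ] CM A n :=
    { toFun := G
      map_add' := fun x y => by ext m; simp [hG', h1]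
      map_smul' := fun c x => by ext m; simp [hG', h2] }
  refine ⟨(L.mkContinuous C hG).uncurryLeft, ?_, ?_⟩
  · rw [ContinuousLinearMap.uncurryLeft_norm]
    exact LinearMap.mkContinuous_norm_le _ hC _
  · funext a
    exact congrFun (hG' _) _

theorem ML.cons {n : ℕ} {C : ℝ} {g : (Fin (n + 1) → A) → A} (h : ML (n + 1) C g) (x : A) :
    ML n (C * ‖x‖) fun m => g (Fin.cons x m) := by
  obtain ⟨G, hG, rfl⟩ := h
  refine ⟨G.curryLeft x, (G.curryLeft.le_opNorm x).trans ?_, rfl⟩
  rw [G.curryLeft_norm]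
  gcongr

theorem ML.mono {n : ℕ} {C C' : ℝ} {g : (Fin n → A) → A} (h : ML n C g) (hC : C ≤ C') :
    ML n C' g := by
  obtain ⟨G, hG, rfl⟩ := h
  exact ⟨G, hG.trans hC, rfl⟩

theorem ML.sub {n : ℕ} {C C' : ℝ} {g g' : (Fin n → A) → A} (h : ML n C g) (h' : ML n C' g') :
    ML n (C + C') fun m => g m - g' m := by
  obtain ⟨G, hG, rfl⟩ := h
  obtain ⟨G', hG', rfl⟩ := h'
  exact ⟨G - G', (norm_sub_le _ _).trans (add_le_add hG hG'), rfl⟩

theorem ML.cav {ι : Type*} [Fintype ι] [Nonempty ι] {n : ℕ} {C : ℝ} {g : ι → (Fin n → A) → A}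
    (h : ∀ i, ML n C (g i)) : ML n C fun m => cav fun i => g i m := by
  choose G hG hG' using h
  have hc : (0 : ℝ) < Fintype.card ι := by exact_mod_cast Fintype.card_pos
  refine ⟨(Fintype.card ι : ℂ)⁻¹ • ∑ i, G i, ?_, ?_⟩
  · rw [norm_smul, norm_inv, Complex.norm_natCast, inv_mul_le_iff₀ hc]
    refine (norm_sum_le _ _).trans ((Finset.sum_le_sum fun i _ => hG i).trans_eq ?_)
    simp
  · funext m; simp [Pr.cav, hG']

theorem ML.mul_left {n : ℕ} {C : ℝ} {g : (Fin n → A) → A} (h : ML n C g) {c : A} (hc : ‖c‖ ≤ 1) :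
    ML n C fun m => c * g m := by
  obtain ⟨G, hG, rfl⟩ := h
  refine ⟨(ContinuousLinearMap.mul ℂ A c).compContinuousMultilinearMap G, ?_, rfl⟩
  refine (ContinuousLinearMap.norm_compContinuousMultilinearMap_le _ _).trans ?_
  have := (ContinuousLinearMap.opNorm_mul_apply_le ℂ A c).trans hc
  nlinarith [norm_nonneg G]

theorem ML.mul_right {n : ℕ} {C : ℝ} {g : (Fin n → A) → A} (h : ML n C g) {c : A} (hc : ‖c‖ ≤ 1) :
    ML n C fun m => g m * c := by
  obtain ⟨G, hG, rfl⟩ := h
  refine ⟨((ContinuousLinearMap.mul ℂ A).flip c).compContinuousMultilinearMap G, ?_, rfl⟩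
  refine (ContinuousLinearMap.norm_compContinuousMultilinearMap_le _ _).trans ?_
  have : ‖(ContinuousLinearMap.mul ℂ A).flip c‖ ≤ 1 :=
    ContinuousLinearMap.opNorm_le_bound _ zero_le_one fun x => (norm_mul_le x c).trans (by
      nlinarith [norm_nonneg x])
  nlinarith [norm_nonneg G]

theorem ML.nonneg {n : ℕ} {C : ℝ} {g : (Fin n → A) → A} (h : ML n C g) : 0 ≤ C := by
  obtain ⟨G, hG, -⟩ := h
  exact (norm_nonneg _).trans hG

theorem ML.cons_add {n : ℕ} {C : ℝ} {g : (Fin (n + 1) → A) → A} (h : ML (n + 1) C g) (x y : A) :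
    (fun m => g (Fin.cons (x + y) m)) = fun m => g (Fin.cons x m) + g (Fin.cons y m) := by
  obtain ⟨G, -, rfl⟩ := h
  funext m
  exact G.cons_add m x y

theorem ML.cons_smul {n : ℕ} {C : ℝ} {g : (Fin (n + 1) → A) → A} (h : ML (n + 1) C g) (c : ℂ)
    (x : A) : (fun m => g (Fin.cons (c • x) m)) = fun m => c • g (Fin.cons x m) := by
  obtain ⟨G, -, rfl⟩ := h
  funext m
  exact G.cons_smul m c x

variable {ι : Type} [Fintype ι] [Nonempty ι] (W W' : ι → A)

/-- The averaged cochain. -/
noncomputable def Ea : {n : ℕ} → ((Fin n → A) → A) → ι → (Fin n → A) → A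
  | 0, f, i, a => f a * W' i
  | _ + 1, f, i, a => cav fun j => Ea (fun m => f (Fin.cons (W' i * a 0 * W j) m)) j (Fin.tail a)

/-- The homotopy. -/
noncomputable def Ha : {n : ℕ} → ((Fin (n + 1) → A) → A) → ι → (Fin n → A) → A
  | 0, f, i, a => f (Fin.cons (W' i) a)
  | _ + 1, f, i, a => f (Fin.cons (W' i) a) -
      cav fun j => Ha (fun m => f (Fin.cons (W' i * a 0 * W j) m)) j (Fin.tail a)

theorem Ea_add {n : ℕ} (f g : (Fin n → A) → A) (i : ι) (a : Fin n → A) :
    Ea W W' (fun m => f m + g m) i a = Ea W W' f i a + Ea W W' g i a := by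
  induction n generalizing i with
  | zero => simp only [Ea, add_mul]
  | succ n ih => simp only [Ea, ih, cav_add]

theorem Ea_smul {n : ℕ} (c : ℂ) (f : (Fin n → A) → A) (i : ι) (a : Fin n → A) :
    Ea W W' (fun m => c • f m) i a = c • Ea W W' f i a := by
  induction n generalizing i with
  | zero => simp only [Ea, smul_mul_assoc]
  | succ n ih => simp only [Ea, ih, cav_smul]

theorem Ha_add {n : ℕ} (f g : (Fin (n + 1) → A) → A) (i : ι) (a : Fin n → A) :
    Ha W W' (fun m => f m + g m) i a = Ha W W' f i a + Ha W W' g i a := by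
  induction n generalizing i with
  | zero => simp only [Ha]
  | succ n ih => simp only [Ha, ih, cav_add]; abel

theorem Ha_sub {n : ℕ} (f g : (Fin (n + 1) → A) → A) (i : ι) (a : Fin n → A) :
    Ha W W' (fun m => f m - g m) i a = Ha W W' f i a - Ha W W' g i a := by
  induction n generalizing i with
  | zero => simp only [Ha]
  | succ n ih => simp only [Ha, ih, cav_sub]; abel

theorem Ha_smul {n : ℕ} (c : ℂ) (f : (Fin (n + 1) → A) → A) (i : ι) (a : Fin n → A) :
    Ha W W' (fun m => c • f m) i a = c • Ha W W' f i a := by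
  induction n generalizing i with
  | zero => simp only [Ha]
  | succ n ih => simp only [Ha, ih, cav_smul, smul_sub]

theorem Ha_mul {n : ℕ} (c : A) (f : (Fin (n + 1) → A) → A) (i : ι) (a : Fin n → A) :
    Ha W W' (fun m => c * f m) i a = c * Ha W W' f i a := by
  induction n generalizing i with
  | zero => simp only [Ha]
  | succ n ih => simp only [Ha, ih, ← mul_cav, mul_sub]

theorem Ea_eq {n : ℕ} (f : (Fin n → A) → A) (i : ι) (a : Fin n → A) :
    Ea W W' f i a = cav fun p : Fin n → ι =>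
      f (fun t => W' ((Fin.cons i p : Fin (n + 1) → ι) t.castSucc) * a t * W (p t)) *
        W' ((Fin.cons i p : Fin (n + 1) → ι) (Fin.last n)) := by
  induction n generalizing i with
  | zero =>
    rw [Ea, ← cav_const (ι := Fin 0 → ι) (f a * W' i)]
    congr 1
    funext p
    congr 2
    exact Subsingleton.elim _ _
  | succ n ih =>
    rw [Ea, cav_cons]
    simp only [ih]
    congr 1
    funext j
    congr 1
    funext p
    congr 2
    funext t
    refine Fin.cases ?_ (fun t => ?_) t <;> simp [Fin.tail]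

variable {W W'}

theorem norm_conj (hn : ∀ i, ‖W i‖ ≤ 1 ∧ ‖W' i‖ ≤ 1) (i j : ι) (x : A) :
    ‖W' i * x * W j‖ ≤ ‖x‖ := by
  refine (norm_mul_le _ _).trans ((mul_le_of_le_one_right (norm_nonneg _) (hn j).1).trans ?_)
  exact (norm_mul_le _ _).trans (mul_le_of_le_one_left (norm_nonneg _) (hn i).2)

theorem ML.ea (hn : ∀ i, ‖W i‖ ≤ 1 ∧ ‖W' i‖ ≤ 1) {n : ℕ} {C : ℝ} {f : (Fin n → A) → A}
    (h : ML n C f) (i : ι) : ML n C (Ea W W' f i) := by
  induction n generalizing i C with
  | zero => exact h.mul_right (hn i).2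
  | succ n ih =>
    refine ML.cav fun j => ML.of_cons h.nonneg
      (fun x => Ea W W' (fun m => f (Fin.cons (W' i * x * W j) m)) j) (fun x y m => ?_)
      (fun c x m => ?_) fun x => ih ((h.cons _).mono ?_) j
    · rw [mul_add, add_mul, h.cons_add, Ea_add]
    · rw [mul_smul_comm, smul_mul_assoc, h.cons_smul, Ea_smul]
    · exact mul_le_mul_of_nonneg_left (norm_conj hn i j x) h.nonneg

theorem ML.ha (hn : ∀ i, ‖W i‖ ≤ 1 ∧ ‖W' i‖ ≤ 1) {n : ℕ} {C : ℝ} {f : (Fin (n + 1) → A) → A}
    (h : ML (n + 1) C f) (i : ι) : ML n ((n + 1) * C) (Ha W W' f i) := by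
  have hC := h.nonneg
  induction n generalizing i C with
  | zero => exact (h.cons _).mono (by simpa using mul_le_of_le_one_right hC (hn i).2)
  | succ n ih =>
    refine (((h.cons (W' i)).mono (mul_le_of_le_one_right hC (hn i).2)).sub
      (ML.cav fun j => ML.of_cons (C := (n + 1) * C) (by positivity)
      (fun x => Ha W W' (fun m => f (Fin.cons (W' i * x * W j) m)) j) (fun x y m => ?_)
      (fun c x m => ?_) fun x => (ih (h.cons _) j (by positivity)).mono ?_)).mono
      (le_of_eq (by push_cast; ring))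
    · rw [mul_add, add_mul, h.cons_add, Ha_add]
    · rw [mul_smul_comm, smul_mul_assoc, h.cons_smul, Ha_smul]
    · rw [mul_assoc _ C]
      have := norm_conj hn i j x
      gcongr

theorem key {z : A} (hz : ∀ a, z * a = a * z) (hW : ∀ i, W i * W' i = z)
    (hW2 : ∀ i, z * W' i = W' i) {n : ℕ} (f : (Fin (n + 1) → A) → A) (i : ι)
    (a : Fin (n + 1) → A) : Ha W W' (D f) i a + D (Ha W W' f i) a = Ea W W' f i a := by
  have e : ∀ i j x, W' i * x * W j * W' j = W' i * x := fun i j x => by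
    rw [mul_assoc, hW, ← hz, ← mul_assoc, hW2]
  have e' : ∀ i j x y k, W' i * x * W j * (W' j * y * W k) = W' i * (x * y) * W k :=
    fun i j x y k => by rw [← mul_assoc, ← mul_assoc, e, mul_assoc (W' i)]
  induction n generalizing i with
  | zero =>
    simp only [Ha, Ea, D_cons, D_zero, Fin.cons_zero, Fin.tail_cons, e, cav_sub, cav_const,
      Subsingleton.elim _ (Fin.elim0 : Fin 0 → A)]
    abel
  | succ n ih =>
    have ih' := fun f i a => eq_sub_of_add_eq (ih f i a)
    rw [Ha, Ea, D_succ (Ha W W' f i)]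
    simp only [D_cons, Ha_sub, ih']
    simp only [Ha, Fin.cons_zero, Fin.tail_cons, e, e', cav_sub, cav_const, D_sub, D_cav]
    rw [D_succ (a := a)]
    simp only [Fin.tail, Fin.succ_zero_eq_one]
    abel

end Pr

open Pr in
theorem prism {A : Type*} [NormedRing A] [NormedAlgebra ℂ A] {ι : Type} [Fintype ι] [Nonempty ι]
    (W W' : ι → A) (z : A) (hz : ∀ a, z * a = a * z) (hW : ∀ i, W i * W' i = z)
    (hW1 : ∀ i, z * W i = W i) (hW2 : ∀ i, z * W' i = W' i) (hn : ∀ i, ‖W i‖ ≤ 1 ∧ ‖W' i‖ ≤ 1)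
    {n : ℕ} (f : CM A (n + 1)) (hf : Coc f) :
    ∃ (F : CM A (n + 1)) (h : CM A n),
      (∀ a, F a = (Fintype.card (Fin (n + 2) → ι) : ℂ)⁻¹ • ∑ p : Fin (n + 2) → ι,
        W (p 0) * f (fun t => W' (p t.castSucc) * a t * W (p t.succ)) * W' (p (Fin.last _))) ∧
      Coc F ∧ ‖F‖ ≤ ‖f‖ ∧ ‖h‖ ≤ (n + 1) * ‖f‖ ∧
      ∀ a, Crest.OpAlg.hochschildDiff h a = F a - f a * z := by
  have h0 : ML (n + 1) ‖f‖ f := ⟨f, le_rfl, rfl⟩
  obtain ⟨F, hF, hF'⟩ := ML.cav fun i => (h0.ea hn i).mul_left (hn i).1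
  obtain ⟨G, hG, hG'⟩ := ML.cav fun i => (h0.ha hn i).mul_left (hn i).1
  have hD : D f = fun a => a 0 * f (Fin.tail a) := funext fun a => by
    have := hf a
    rw [hd_eq, sub_eq_zero] at this
    exact this.symm
  have main : ∀ a, hochschildDiff (⇑(-G)) a = F a - f a * z := by
    intro a
    have e : ⇑(-G) = fun m => (-1 : A) * G m := by funext m; simp
    have k := fun i => eq_sub_of_add_eq' (key hz hW hW2 f i a)
    rw [e, hd_eq, D_mul, hG', hF', D_cav]
    simp only [D_mul, k, hD, Ha, Fin.cons_zero, Fin.tail_cons, Ha_mul, mul_sub, cav_sub, ← mul_assoc,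
      hW, mul_cav, cav_const, hz (a 0)]
    simp only [mul_assoc _ z, hW1, hz (f a), mul_neg, neg_mul, mul_one, one_mul, mul_assoc,
      ← mul_cav]
    simp only [cav, Finset.sum_neg_distrib, smul_neg, mul_neg]
    abel
  refine ⟨F, -G, fun a => ?_, fun a => ?_, hF, by rwa [norm_neg], main⟩
  · change _ = cav _
    rw [hF', cav_cons]
    simp only [Ea_eq, mul_cav, Fin.cons_zero, Fin.cons_succ, mul_assoc]
  · have e : ⇑F = fun a => hochschildDiff (⇑(-G)) a + z * f a := by
      funext a; rw [main, hz, sub_add_cancel]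
    have h1 := hd_hd (⇑(-G)) a
    have h2 := hf a
    rw [hd_eq] at h1 h2
    rw [e, hd_eq, D_add, D_mul, mul_add, add_sub_add_comm, h1, ← mul_assoc, ← hz, mul_assoc,
      ← mul_sub, h2, mul_zero, add_zero]

end Crest.Agent.R121
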