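import Crest.Agent.R121.Lim
import Crest.Agent.R121.Prism

/-! Task 121-D: on the properly infinite part cocycles are cohomologous to cocycles that are
completely bounded in the last variable. -/

set_option autoImplicit false
set_option linter.unusedSectionVars false
set_option linter.unusedVariables false

open scoped InnerProductSpace ComplexOrder
open Filter Topology

namespace Crest.Agent.R121
open Crest.Agent.R124 Crest.OpAlg

variable {H : Type*} [NormedAddCommGroup H] [InnerProductSpace ℂ H] [CompleteSpace H]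

namespace Pr

section Alg
variable {A : Type*} [NormedRing A] [NormedAlgebra ℂ A]

/-- A sign as a complex number. -/
def sn (u : ℤˣ) : ℂ := ((u : ℤ) : ℂ)

theorem sn_mul (u v : ℤˣ) : sn (u * v) = sn u * sn v := by simp [sn]
theorem sn_star (u : ℤˣ) : (starRingEnd ℂ) (sn u) = sn u := by simp [sn]

theorem cav_sum {ι α : Type*} [Fintype ι] (s : Finset α) (f : α → ι → A) :
    cav (fun i => ∑ a ∈ s, f a i) = ∑ a ∈ s, cav (f a) := by
  simp only [cav, Finset.smul_sum, Finset.sum_comm (s := s)]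

theorem cav_equiv {ι : Type*} [Fintype ι] (e : ι ≃ ι) (f : ι → A) :
    cav (fun i => f (e i)) = cav f := by simp only [cav, Equiv.sum_comp e f]

theorem norm_cav_le {ι : Type*} [Fintype ι] [Nonempty ι] {f : ι → A} {c : ℝ} (h : ∀ i, ‖f i‖ ≤ c) :
    ‖cav f‖ ≤ c := by
  have hc : (0 : ℝ) < Fintype.card ι := by exact_mod_cast Fintype.card_pos
  rw [cav, norm_smul, norm_inv, Complex.norm_natCast, inv_mul_le_iff₀ hc]
  exact (norm_sum_le _ _).trans ((Finset.sum_le_sum fun i _ => h i).trans_eq (by simp))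

theorem cav_sign {I : Type} [Fintype I] [DecidableEq I] (x : I → I → A) :
    cav (fun e : I → ℤˣ => ∑ k, ∑ k', (sn (e k) * sn (e k')) • x k k') = ∑ k, x k k := by
  have h : ∀ k k', cav (fun e : I → ℤˣ => (sn (e k) * sn (e k')) • x k k') =
      if k = k' then x k k' else 0 := by
    intro k k'
    have := congrArg (fun r : ℝ => (r : ℂ) • x k k') (Ty.av_sign k k')
    simp only [av, smul_eq_mul] at this
    push_cast at this
    simp only [cav, ← Finset.sum_smul, smul_smul, sn, this]
    split_ifs <;> simp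
  simp only [cav_sum, h, Finset.sum_ite_eq, Finset.mem_univ, if_true]

theorem cons_sum {n : ℕ} (G : CM A (n + 1)) {α : Type*} (s : Finset α) (c : α → ℂ) (x : α → A)
    (m : Fin n → A) :
    G (Fin.cons (∑ a ∈ s, c a • x a) m) = ∑ a ∈ s, c a • G (Fin.cons (x a) m) := by
  change G.curryLeft _ m = ∑ a ∈ s, c a • G.curryLeft (x a) m
  simp only [map_sum, map_smul, sum_apply, smul_apply]

variable {κ : Type} [Fintype κ] [AddCommGroup κ] {W W' : κ → A}

theorem Ea_mul {n : ℕ} (c : A) (f : (Fin n → A) → A) (i : κ) (a : Fin n → A) :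
    Ea W W' (fun m => c * f m) i a = c * Ea W W' f i a := by
  induction n generalizing i with
  | zero => simp only [Ea, mul_assoc]
  | succ n ih => simp only [Ea, ih, mul_cav]

theorem jbd {I J : Type} [Fintype I] [Fintype J] [DecidableEq I] [DecidableEq J] (ι : I → κ)
    (ι' : J → κ) (Z : I → J → A) (v : J → A)
    (h1 : ∀ (r r' : κ) (e : I → ℤˣ) (a : A),
      ‖∑ k, sn (e k) • (W' (r + ι k) * a * W (r' + ι k))‖ ≤ ‖a‖)
    (h2 : ∀ (r r' : κ) (e : I → ℤˣ) (e' : J → ℤˣ),
      ‖∑ k, sn (e k) • ∑ l, sn (e' l) • (W' (r + ι k) * Z k l * W (r' + ι' l))‖ ≤ 1)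
    (h3 : ∀ (r' : κ) (e' : J → ℤˣ), ‖∑ l, sn (e' l) • (W' (r' + ι' l) * v l)‖ ≤ 1)
    {n : ℕ} (f : I → CM A (n + 1)) {C : ℝ} (hf : ∀ e : I → ℤˣ, ‖∑ k, sn (e k) • f k‖ ≤ C)
    (r : κ) (a : Fin n → A) :
    ‖∑ k, ∑ l, Ea W W' (f k) (r + ι k) (Fin.snoc a (Z k l)) * v l‖ ≤ C * ∏ i, ‖a i‖ := by
  have hC : 0 ≤ C := (norm_nonneg _).trans (hf 1)
  induction n generalizing C r with
  | zero =>
    have e0 : ∀ k l, Ea W W' (f k) (r + ι k) (Fin.snoc a (Z k l)) * v l = cav fun r' =>
        f k (Fin.cons (W' (r + ι k) * Z k l * W (r' + ι' l)) Fin.elim0) *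
          (W' (r' + ι' l) * v l) := by
      intro k l
      simp only [Ea, cav_mul]
      rw [← cav_equiv (Equiv.addRight (ι' l))]
      simp only [Equiv.coe_addRight, mul_assoc, Subsingleton.elim _ (Fin.elim0 : Fin 0 → A)]
      rfl
    simp only [e0, ← cav_sum, Finset.univ_eq_empty, Finset.prod_empty, mul_one]
    refine norm_cav_le fun r' => ?_
    have e1 : ∑ k, ∑ l, f k (Fin.cons (W' (r + ι k) * Z k l * W (r' + ι' l)) Fin.elim0) *
        (W' (r' + ι' l) * v l) = cav fun e' : J → ℤˣ => cav fun e : I → ℤˣ =>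
        (∑ k, sn (e k) • f k) (Fin.cons (∑ k, sn (e k) • ∑ l, sn (e' l) •
          (W' (r + ι k) * Z k l * W (r' + ι' l))) Fin.elim0) *
          ∑ l, sn (e' l) • (W' (r' + ι' l) * v l) := by
      simp only [← cav_mul, sum_apply, smul_apply]
      simp only [cons_sum _ (Finset.univ : Finset I), Finset.smul_sum (s := (Finset.univ : Finset I)),
        smul_smul, cav_sign]
      simp only [cons_sum, Finset.sum_mul, cav_sum (Finset.univ : Finset I)]
      simp only [Finset.mul_sum, smul_mul_smul_comm, cav_sign]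
    rw [e1]
    refine norm_cav_le fun e' => norm_cav_le fun e => (norm_mul_le _ _).trans ?_
    refine (mul_le_of_le_one_right (norm_nonneg _) (h3 r' e')).trans ?_
    refine (ContinuousMultilinearMap.le_opNorm _ _).trans ?_
    rw [Fin.prod_univ_succ, Fin.cons_zero]
    simpa using mul_le_mul (hf e) (h2 r r' e e') (norm_nonneg _) hC
  | succ n ih =>
    have e0 : ∀ k l, Ea W W' (f k) (r + ι k) (Fin.snoc a (Z k l)) * v l = cav fun r' =>
        Ea W W' ((f k).curryLeft (W' (r + ι k) * a 0 * W (r' + ι k))) (r' + ι k)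
          (Fin.snoc (Fin.tail a) (Z k l)) * v l := by
      intro k l
      rw [Ea, cav_mul, ← cav_equiv (Equiv.addRight (ι k))]
      have t1 : (Fin.snoc a (Z k l) : Fin (n + 2) → A) 0 = a 0 :=
        Fin.snoc_castSucc (α := fun _ => A) _ _ 0
      have t2 : Fin.tail (Fin.snoc a (Z k l) : Fin (n + 2) → A) = Fin.snoc (Fin.tail a) (Z k l) := by
        funext i
        refine Fin.lastCases ?_ (fun i => ?_) i
        · simp [Fin.tail]
        · simp only [Fin.tail, Fin.snoc_castSucc, ← Fin.castSucc_succ]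
      rw [t1, t2]
      rfl
    simp only [e0, ← cav_sum]
    refine norm_cav_le fun r' => ?_
    rw [Fin.prod_univ_succ, ← mul_assoc]
    refine ih _ (fun e' => ?_) r' (Fin.tail a) (by positivity)
    have e1 : ∀ m, (∑ k, sn (e' k) • (f k).curryLeft (W' (r + ι k) * a 0 * W (r' + ι k))) m =
        cav fun e : I → ℤˣ => (∑ k, sn (e k) • f k) (Fin.cons (∑ k, sn ((e * e') k) •
          (W' (r + ι k) * a 0 * W (r' + ι k))) m) := by
      intro m
      rw [sum_apply]
      refine (cav_sign fun k k' => sn (e' k') •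
        f k (Fin.cons (W' (r + ι k') * a 0 * W (r' + ι k')) m)).symm.trans ?_
      simp only [sum_apply, smul_apply, cons_sum, Finset.smul_sum, Pi.mul_apply, sn_mul, mul_smul,
        ContinuousMultilinearMap.cons_smul]
    refine ContinuousMultilinearMap.opNorm_le_bound (by positivity) fun m => ?_
    rw [e1]
    refine norm_cav_le fun e => (ContinuousMultilinearMap.le_opNorm _ _).trans ?_
    rw [Fin.prod_univ_succ, Fin.cons_zero, ← mul_assoc]
    simp only [Fin.cons_succ]
    have := hf e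
    have := h1 r r' (e * e') (a 0)
    gcongr

end Alg

/-- Families with orthogonal ranges. -/
def Ort {I : Type} (u : I → Op H) : Prop :=
  (∀ i, ‖u i‖ ≤ 1) ∧ ∀ i j, i ≠ j → star (u i) * u j = 0

theorem Ort.col {I : Type} [Fintype I] {u : I → Op H} (h : Ort u) (y : I → H) :
    ‖∑ k, u k (y k)‖ ^ 2 = ∑ k, ‖u k (y k)‖ ^ 2 := by
  classical
  rw [← inner_self_eq_norm_sq (𝕜 := ℂ), sum_inner, map_sum]
  refine Finset.sum_congr rfl fun k _ => ?_
  rw [inner_sum, Finset.sum_eq_single k (fun l _ hl => ?_) (by simp), inner_self_eq_norm_sq]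
  rw [← ContinuousLinearMap.adjoint_inner_right, ← ContinuousLinearMap.star_eq_adjoint,
    ← mul_apply_eq_comp, h.2 k l hl.symm]
  simp

theorem Ort.col_le {I : Type} [Fintype I] {u : I → Op H} (h : Ort u) (y : I → H) :
    ‖∑ k, u k (y k)‖ ^ 2 ≤ ∑ k, ‖y k‖ ^ 2 := by
  rw [h.col]
  exact Finset.sum_le_sum fun k _ => pow_le_pow_left₀ (norm_nonneg _)
    (by simpa using (u k).le_of_opNorm_le (h.1 k) (y k)) 2

theorem Ort.row_le {I : Type} [Fintype I] {u : I → Op H} (h : Ort u) (ξ : H) :
    ∑ k, ‖star (u k) ξ‖ ^ 2 ≤ ‖ξ‖ ^ 2 := by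
  have h1 := h.col_le fun k => star (u k) ξ
  have h2 : ∑ k, ‖star (u k) ξ‖ ^ 2 = (⟪ξ, ∑ k, u k (star (u k) ξ)⟫_ℂ).re := by
    rw [inner_sum, Complex.re_sum]
    refine Finset.sum_congr rfl fun k _ => ?_
    rw [← ContinuousLinearMap.adjoint_inner_left, ← ContinuousLinearMap.star_eq_adjoint,
      ← inner_self_eq_norm_sq (𝕜 := ℂ)]
    rfl
  have h3 := (Complex.re_le_norm _).trans (norm_inner_le_norm (𝕜 := ℂ) ξ (∑ k, u k (star (u k) ξ)))
  rw [← h2] at h3
  nlinarith [sq_nonneg (‖ξ‖ - ‖∑ k, u k (star (u k) ξ)‖)]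

theorem Ort.smul {I : Type} {u : I → Op H} (h : Ort u) (e : I → ℤˣ) :
    Ort fun k => sn (e k) • u k := by
  refine ⟨fun i => ?_, fun i j hij => by simp [h.2 i j hij]⟩
  rw [norm_smul]
  rcases Int.units_eq_one_or (e i) with h0 | h0 <;> simpa [h0, sn] using h.1 i

theorem Ort.comp {I J : Type} {u : I → Op H} (h : Ort u) {e : J → I} (he : e.Injective) :
    Ort fun k => u (e k) := ⟨fun _ => h.1 _, fun i j hij => h.2 _ _ (he.ne hij)⟩

theorem norm_mat_le {I J : Type} [Fintype I] [Fintype J] {u : I → Op H} {v : J → Op H}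
    (hu : Ort u) (hv : Ort v) {Z : I → J → Op H} (hZ : Con Z 1) :
    ‖∑ k, ∑ l, u k * Z k l * star (v l)‖ ≤ 1 := by
  refine ContinuousLinearMap.opNorm_le_bound _ zero_le_one fun ξ => ?_
  refine le_of_sq_le_sq_nn (by positivity) ?_
  simp only [sum_apply, mul_apply_eq_comp, ← map_sum]
  refine (hu.col_le _).trans ((hZ _).trans ?_)
  simpa using hv.row_le ξ

theorem norm_diag_le {I : Type} [Fintype I] {u v : I → Op H} (hu : Ort u) (hv : Ort v)
    (a : Op H) : ‖∑ k, u k * a * star (v k)‖ ≤ ‖a‖ := by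
  refine ContinuousLinearMap.opNorm_le_bound _ (norm_nonneg _) fun ξ => ?_
  refine le_of_sq_le_sq_nn (by positivity) ?_
  simp only [sum_apply, mul_apply_eq_comp]
  refine (hu.col_le _).trans ?_
  rw [mul_pow]
  refine le_trans ?_ (mul_le_mul_of_nonneg_left (hv.row_le ξ) (sq_nonneg _))
  rw [Finset.mul_sum]
  exact Finset.sum_le_sum fun k _ => by
    rw [← mul_pow]; exact pow_le_pow_left₀ (norm_nonneg _) (a.le_opNorm _) 2

theorem con_of_norm {I J : Type} [Fintype I] [Fintype J] {u : I → Op H} {v : J → Op H}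
    (hu : Ort u) (hv : Ort v) {Y : Op H} {c : ℝ} (hY : ‖Y‖ ≤ c) :
    Con (fun k l => star (u k) * Y * v l) c := fun ξ => by
  simp only [mul_apply_eq_comp, ← map_sum]
  refine (hu.row_le _).trans ((pow_le_pow_left₀ (norm_nonneg _) (Y.le_of_opNorm_le hY _) 2).trans ?_)
  rw [mul_pow]
  exact mul_le_mul_of_nonneg_left (hv.col_le ξ) (sq_nonneg _)

theorem exists_cm_lim (M : VonNeumannAlgebra H) {ι : Type*} (U : Ultrafilter ι) {n : ℕ}
    (g : ι → CM M.toStarSubalgebra n) {c : ℝ} (hc : 0 ≤ c) (hg : ∀ i, ‖g i‖ ≤ c) :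
    ∃ G : CM M.toStarSubalgebra n, ‖G‖ ≤ c ∧ ∀ a, WLim U (fun i => (g i a : Op H)) (G a) := by
  have hb : ∀ a i, ‖(g i a : Op H)‖ ≤ c * ∏ j, ‖a j‖ := fun a i => (g i).le_of_opNorm_le (hg i) a
  choose t ht using fun a => exists_wlim' U (fun i => (g i a : Op H)) (hb a)
  let G : MultilinearMap ℂ (fun _ : Fin n => M.toStarSubalgebra) M.toStarSubalgebra :=
    { toFun := fun a => ⟨t a, (ht a).mem (Eventually.of_forall fun i => (g i a).2)⟩
      map_update_add' := fun m j x y => Subtype.ext ((ht _).unique (((ht _).add (ht _)).congr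
        (Eventually.of_forall fun i => by rw [(g i).map_update_add]; rfl)))
      map_update_smul' := fun m j z x => Subtype.ext ((ht _).unique (((ht _).csmul z).congr
        (Eventually.of_forall fun i => by rw [(g i).map_update_smul]; rfl))) }
  exact ⟨G.mkContinuous c fun a => (ht a).norm_le (Eventually.of_forall (hb a)),
    MultilinearMap.mkContinuous_norm_le _ hc _, ht⟩

theorem wlim_hd {M : VonNeumannAlgebra H} {ι : Type*} {U : Filter ι} {n : ℕ}
    {g : ι → (Fin n → M.toStarSubalgebra) → M.toStarSubalgebra}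
    {G : (Fin n → M.toStarSubalgebra) → M.toStarSubalgebra}
    (h : ∀ a, WLim U (fun i => (g i a : Op H)) (G a)) (a : Fin (n + 1) → M.toStarSubalgebra) :
    WLim U (fun i => ((hochschildDiff (g i) a : M.toStarSubalgebra) : Op H))
      (hochschildDiff G a : M.toStarSubalgebra) := by
  simp only [hochschildDiff, AddMemClass.coe_add, MulMemClass.coe_mul,
    AddSubmonoidClass.coe_finsetSum, AddSubgroupClass.coe_zsmul]
  exact (((h _).mul_left _).add (WLim.sum _ fun j _ => (h _).zsmul _)).add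
    (((h _).mul_right _).zsmul _)

theorem con_F (M : VonNeumannAlgebra H) {z : M.toStarSubalgebra} {κ : Type} [Fintype κ]
    [AddCommGroup κ] [DecidableEq κ] (s : κ → M.toStarSubalgebra)
    (hs : ∀ i j, star (s i) * s j = if i = j then z else 0) (hzs : ∀ i, s i * z = s i)
    (hzc : ∀ a, z * a = a * z) (ho : Ort fun i => (s i : Op H)) {n : ℕ}
    (f : CM M.toStarSubalgebra (n + 1)) (a : Fin n → M.toStarSubalgebra) {I J : Type} [Fintype I]
    [Fintype J] (ι : I ↪ κ) (ι' : J ↪ κ) (Z : I → J → M.toStarSubalgebra)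
    (hZ : Con (fun i j => (Z i j : Op H)) 1) :
    Con (fun k l => ((cav fun i => star (s i) * Ea (fun i => star (s i)) s f i
      (Fin.snoc a (Z k l)) : M.toStarSubalgebra) : Op H)) (‖f‖ * ∏ i, ‖a i‖) := by
  classical
  have nc : ∀ b : M.toStarSubalgebra, ‖b‖ = ‖(b : Op H)‖ := fun _ => rfl
  have o1 : ∀ r, Ort fun k => (s (r + ι k) : Op H) := fun r =>
    ho.comp ((add_right_injective r).comp ι.injective)
  have o2 : ∀ r, Ort fun k => (s (r + ι' k) : Op H) := fun r =>
    ho.comp ((add_right_injective r).comp ι'.injective)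
  have key : ∀ r, ‖∑ k, ∑ l, s (ι k) * (star (s (r + ι k)) *
      Ea (fun i => star (s i)) s f (r + ι k) (Fin.snoc a (Z k l))) * star (s (ι' l))‖ ≤
      ‖f‖ * ∏ i, ‖a i‖ := by
    intro r
    have := jbd (W := fun i => star (s i)) (W' := s) ι ι' Z (fun l => star (s (ι' l)))
      (fun r r' e x => ?_) (fun r r' e e' => ?_) (fun r' e' => ?_)
      (fun k => (ContinuousLinearMap.mul ℂ _
        (s (ι k) * star (s (r + ι k)))).compContinuousMultilinearMap f)
      (C := ‖f‖) (fun e => ?_) r a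
    · simp only [← mul_assoc]
      simp only [← Ea_mul]
      exact this
    · have := norm_diag_le ((o1 r).smul e) (o1 r') x
      rw [nc]
      simpa using this
    · have := norm_mat_le ((o1 r).smul e) ((o2 r').smul e') hZ
      rw [nc]
      simpa [sn_star, Finset.smul_sum, smul_smul, mul_comm] using this
    · have := (norm_diag_le ((o2 r').smul e') (ho.comp ι'.injective) 1).trans norm_one_le'
      rw [nc]
      simpa using this
    · have := (norm_diag_le ((ho.comp ι.injective).smul e) (o1 r) 1).trans norm_one_le'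
      refine ContinuousMultilinearMap.opNorm_le_bound (norm_nonneg _) fun m => ?_
      have e1 : (∑ k, sn (e k) • (ContinuousLinearMap.mul ℂ _
          (s (ι k) * star (s (r + ι k)))).compContinuousMultilinearMap f) m =
          (∑ k, sn (e k) • (s (ι k) * star (s (r + ι k)))) * f m := by
        simp [Finset.sum_mul]
      rw [e1]
      refine (norm_mul_le _ _).trans (le_trans ?_ (f.le_opNorm m))
      refine mul_le_of_le_one_left (norm_nonneg _) ?_
      rw [nc]
      simpa using this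
  set G : I → J → M.toStarSubalgebra := fun k l =>
    cav fun i => star (s i) * Ea (fun i => star (s i)) s f i (Fin.snoc a (Z k l)) with hG
  have hzG : ∀ k l, z * G k l = G k l := fun k l => by
    have : ∀ i, z * star (s i) = star (s i) := fun i => by
      have h1 := hs i i
      rw [if_pos rfl] at h1
      rw [← h1, ← star_star (s i), ← star_mul, ← star_mul, star_star, h1, hzs]
    simp only [hG, mul_cav, ← mul_assoc, this]
  have eG : ∀ k l, G k l = star (s (ι k)) * (∑ k, ∑ l, s (ι k) * G k l * star (s (ι' l))) *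
      s (ι' l) := by
    intro k l
    simp only [Finset.mul_sum, Finset.sum_mul, ← mul_assoc, hs, mul_assoc _ _ (s (ι' l)),
      EmbeddingLike.apply_eq_iff_eq, ite_mul, mul_ite, zero_mul, mul_zero]
    rw [Finset.sum_eq_single k (fun _ _ h => by simp [h.symm]) (by simp)]
    simp only [if_true, Finset.sum_ite_eq', Finset.mem_univ]
    rw [← hzc, hzG, hzG]
  have h3 : ‖∑ k, ∑ l, s (ι k) * G k l * star (s (ι' l))‖ ≤ ‖f‖ * ∏ i, ‖a i‖ := by
    have e : ∀ k l, G k l = cav fun r => star (s (r + ι k)) *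
        Ea (fun i => star (s i)) s f (r + ι k) (Fin.snoc a (Z k l)) := fun k l =>
      (cav_equiv (Equiv.addRight (ι k)) _).symm
    simp only [e, mul_cav, cav_mul, ← cav_sum]
    exact norm_cav_le key
  have h4 := con_of_norm (ho.comp ι.injective) (ho.comp ι'.injective) (nc _ ▸ h3)
  change Con (fun k l => (G k l : Op H)) _
  convert h4 using 3 with k l
  exact congrArg Subtype.val (eG k l)

theorem exists_s (M : VonNeumannAlgebra H) {z : M.toStarSubalgebra} (hz : Cen M z)
    (hzp : IsStarProjection (z : Op H)) (hinf : PropInf (corner M z)) (N : ℕ) :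
    ∃ s : Fin N → M.toStarSubalgebra, (∀ i j, star (s i) * s j = if i = j then z else 0) ∧
      (∀ i, s i * z = s i) ∧ (∀ i, star (s i) * z = star (s i)) ∧ Ort fun i => (s i : Op H) := by
  obtain ⟨z, hzM⟩ := z
  change IsStarProjection z at hzp
  change PropInf (corner M z) at hinf
  obtain ⟨s₀, hs₀, hs₁⟩ := hinf N
  have hs : ∀ i j, star (lift z (s₀ i)) * lift z (s₀ j) = if i = j then z else 0 := by
    intro i j
    refine (congrArg (· * lift z (s₀ j)) (lift_star (s₀ i)).symm).trans ?_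
    refine (lift_mul _ _).symm.trans ((congrArg (lift z) (hs₁ i j)).trans ?_)
    split_ifs
    · exact lift_one hzp
    · exact lift_zero
  refine ⟨fun i => ⟨lift z (s₀ i), (mem_corner hzp hzM).1 (hs₀ i)⟩, fun i j => ?_,
    fun i => Subtype.ext (lift_mul_self hzp _), fun i => Subtype.ext ?_, fun i => ?_,
    fun i j hij => ?_⟩
  · apply Subtype.ext
    rw [apply_ite Subtype.val]
    exact hs i j
  · exact star_mul_proj hzp (mul_lift hzp _)
  · refine (pi_of_init ?_).norm_le
    rw [hs, if_pos rfl]; exact hzp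
  · rw [hs, if_neg hij]

end Pr

open Pr in
theorem cb_cocycle (M : VonNeumannAlgebra H) {z : M.toStarSubalgebra} (hz : Cen M z)
    (hzp : IsStarProjection (z : Op H)) (hinf : PropInf (corner M z)) {n : ℕ}
    (f : CM M.toStarSubalgebra (n + 1)) (hf : Coc f) :
    ∃ (F : CM M.toStarSubalgebra (n + 1)) (h : CM M.toStarSubalgebra n), Coc F ∧
      (∀ a, Crest.OpAlg.hochschildDiff h a = F a - f a * z) ∧
      ∀ (a : Fin n → M.toStarSubalgebra) (φ : LM H),
        (∀ c : M.toStarSubalgebra, φ c = F (Fin.snoc a c)) → CBd M φ (‖f‖ * ∏ i, ‖a i‖) := by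
  classical
  choose s hs hzs hzs' ho using fun N => exists_s M hz hzp hinf (N + 1)
  have hzc : ∀ a, z * a = a * z := fun a => Subtype.ext (hz.2 _ a.2)
  choose F h e1 e2 e3 e4 e5 using fun N => prism (fun i => star (s N i)) (s N) z hzc
    (fun i => by rw [hs, if_pos rfl]) (fun i => by rw [hzc, hzs']) (fun i => by rw [hzc, hzs])
    (fun i => ⟨(norm_star _).trans_le ((ho N).1 i), (ho N).1 i⟩) f hf
  let U : Ultrafilter ℕ := Ultrafilter.of atTop
  obtain ⟨F', b1, l1⟩ := exists_cm_lim M U F (norm_nonneg _) e3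
  obtain ⟨h', -, l2⟩ := exists_cm_lim M U h (by positivity) e4
  refine ⟨F', h', fun a => Subtype.ext ?_, fun a => Subtype.ext ?_, fun a φ hφ =>
    ⟨⟨by positivity, fun x hx => ?_⟩, fun I J _ _ Z hZ hZ1 => ?_⟩⟩
  · exact (wlim_hd l1 a).unique ((WLim.const _).congr (Eventually.of_forall fun N => by
      rw [e2 N a]))
  · exact (wlim_hd l2 a).unique (((l1 a).sub (WLim.const _)).congr
      (Eventually.of_forall fun N => by rw [e5 N a]; rfl))
  · rw [hφ ⟨x, hx⟩]
    refine ⟨(F' _).2, (F'.le_of_opNorm_le b1 _).trans_eq ?_⟩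
    rw [Fin.prod_univ_castSucc, mul_assoc]
    simp only [Fin.snoc_castSucc, Fin.snoc_last]
    rfl
  let Z' : I → J → M.toStarSubalgebra := fun i j => ⟨Z i j, hZ i j⟩
  refine WLim.con (U := U) (S := fun i j N => F N (Fin.snoc a (Z' i j)))
    (fun i j => by rw [hφ (Z' i j)]; exact l1 _) (Ultrafilter.of_le _ ?_)
  filter_upwards [eventually_ge_atTop (Fintype.card I), eventually_ge_atTop (Fintype.card J)]
    with N hI hJ
  obtain ⟨ι⟩ : Nonempty (I ↪ Fin (N + 1)) :=
    Function.Embedding.nonempty_of_card_le (by simp; omega)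
  obtain ⟨ι'⟩ : Nonempty (J ↪ Fin (N + 1)) :=
    Function.Embedding.nonempty_of_card_le (by simp; omega)
  have eF : ∀ b, F N b = cav fun i => star (s N i) * Ea (fun i => star (s N i)) (s N) f i b := by
    intro b
    rw [e1]
    change cav _ = _
    rw [cav_cons]
    simp only [Ea_eq, mul_cav, Fin.cons_zero, Fin.cons_succ, mul_assoc]
  simp only [eF]
  exact con_F M (s N) (hs N) (hzs N) hzc (ho N) f a ι ι' Z' hZ1

end Crest.Agent.R121
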