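import Crest.Agent.R121.Defs

/-! Task 121-G: Markov operators, tracial functionals. -/

set_option autoImplicit false
set_option linter.unusedSectionVars false
set_option linter.unusedVariables false

open scoped InnerProductSpace ComplexOrder
open Filter Topology

namespace Crest.Agent.R121
open Crest.Agent.R124

variable {H : Type*} [NormedAddCommGroup H] [InnerProductSpace ℂ H] [CompleteSpace H]

theorem Tm_mul (a b a' b' : Op H) : Tm a b * Tm a' b' = Tm (a * a') (b' * b) := by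
  sorry

theorem Tm_one : Tm (1 : Op H) 1 = 1 := by
  sorry

section Mk
variable {P : VonNeumannAlgebra H} {Θ Θ' : EM H}

theorem Uni.norm_le {u : Op H} (h : Uni P u) : ‖u‖ ≤ 1 := by
  sorry

theorem Uni.mul {u v : Op H} (h : Uni P u) (h' : Uni P v) : Uni P (u * v) := by
  sorry

theorem Uni.star {u : Op H} (h : Uni P u) : Uni P (star u) := by
  sorry

theorem Mk.tm {u : Op H} (h : Uni P u) : Mk P (Tm u (star u)) := by
  sorry

theorem Mk.one : Mk P 1 := by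
  sorry

theorem Mk.mul (h : Mk P Θ) (h' : Mk P Θ') : Mk P (Θ * Θ') := by
  sorry

theorem Mk.pow (h : Mk P Θ) (n : ℕ) : Mk P (Θ ^ n) := by
  sorry

theorem Mk.sum {α : Type*} (s : Finset α) {p : α → ℝ} {Θ : α → EM H}
    (h : ∀ a ∈ s, 0 ≤ p a ∧ Mk P (Θ a)) (hp : ∑ a ∈ s, p a = 1) : Mk P (∑ a ∈ s, p a • Θ a) := by
  sorry

theorem Mk.av {α : Type*} [Fintype α] [Nonempty α] {Θ : α → EM H} (h : ∀ a, Mk P (Θ a)) :
    Mk P (av Θ) := by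
  sorry

theorem Mk.bd (h : Mk P Θ) {φ : LM H} {β : ℝ} (hφ : Bd P φ β) : Bd P (Θ φ) β := by
  sorry

theorem Bd.tm {φ : LM H} {β : ℝ} (hφ : Bd P φ β) {a b : Op H} (ha : a ∈ P) (hb : b ∈ P) :
    Bd P (Tm a b φ) (β * ‖a‖ * ‖b‖) := by
  sorry

theorem Bd.mono {φ : LM H} {β β' : ℝ} (hφ : Bd P φ β) (h : β ≤ β') : Bd P φ β' := by
  sorry

theorem Bd.add {φ ψ : LM H} {β β' : ℝ} (hφ : Bd P φ β) (hψ : Bd P ψ β') :
    Bd P (φ + ψ) (β + β') := by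
  sorry

theorem Bd.rsmul {φ : LM H} {β : ℝ} (hφ : Bd P φ β) (c : ℝ) : Bd P (c • φ) (|c| * β) := by
  sorry

theorem Sym.mk_E {Γ : Type} [Group Γ] [Fintype Γ] (d : Sym P Γ) : Mk P d.E := by
  sorry

theorem Sym.mk_T0 {Γ : Type} [Group Γ] [Fintype Γ] (d : Sym P Γ) : Mk P d.T0 := by
  sorry

theorem Sym.τσ {Γ : Type} [Group Γ] (d : Sym P Γ) (T : Tr P) : T.τ d.σ = 0 := by
  sorry

end Mk

/-- Every centre-valued trace has the Dixmier property. -/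
theorem tr_dix {P : VonNeumannAlgebra H} (T : Tr P) (F : Set (Op H)) (hF : F.Finite)
    (hFP : ∀ a ∈ F, a ∈ P) {ρ : ℝ} (hρ : 0 < ρ) :
    ∃ (n : ℕ) (u : Fin (n + 1) → Op H), (∀ j, Uni P (u j)) ∧
      ∀ a ∈ F, ‖av (fun j => u j * a * star (u j)) - T.τ a‖ ≤ ρ := by
  sorry

namespace TF
variable {P : VonNeumannAlgebra H} (w : TF P) {a b : Op H}

theorem n2_nonneg (ha : a ∈ P) : 0 ≤ w.n2 a := by
  sorry

theorem cs (ha : a ∈ P) (hb : b ∈ P) : ‖w.w (a * b)‖ ≤ √(w.n2 a) * √(w.n2 b) := by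
  sorry

theorem n2_star (ha : a ∈ P) : w.n2 (star a) = w.n2 a := by
  sorry

theorem re_mono (ha : a ∈ P) (hb : b ∈ P) (h : a ≤ b) : (w.w a).re ≤ (w.w b).re := by
  sorry

theorem n2_mul_left (ha : a ∈ P) (hb : b ∈ P) : w.n2 (a * b) ≤ ‖a‖ ^ 2 * w.n2 b := by
  sorry

theorem n2_mul_right (ha : a ∈ P) (hb : b ∈ P) : w.n2 (a * b) ≤ ‖b‖ ^ 2 * w.n2 a := by
  sorry

theorem n2_le (ha : a ∈ P) : w.n2 a ≤ ‖a‖ ^ 2 := by
  sorry

theorem norm_le (ha : a ∈ P) : ‖w.w a‖ ≤ ‖a‖ := by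
  sorry

theorem norm_mul_pos (ha : a ∈ P) (hb : b ∈ P) (h : 0 ≤ b) :
    ‖w.w (a * b)‖ ≤ ‖a‖ * (w.w b).re := by
  sorry

theorem map_av {Ω : Type*} [Fintype Ω] (f : Ω → Op H) : w.w (av f) = av fun ω => w.w (f ω) := by
  sorry

theorem n2_av_le {Ω : Type*} [Fintype Ω] {f : Ω → Op H} (hf : ∀ ω, f ω ∈ P) :
    w.n2 (av f) ≤ av fun ω => w.n2 (f ω) := by
  sorry

/-- Cauchy-Schwarz for averages. -/
theorem av_cs {Ω : Type*} [Fintype Ω] {f g : Ω → Op H} (hf : ∀ ω, f ω ∈ P) (hg : ∀ ω, g ω ∈ P) :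
    ‖av fun ω => w.w (f ω * g ω)‖ ≤ √(av fun ω => w.n2 (f ω)) * √(av fun ω => w.n2 (g ω)) := by
  sorry

/-- Little Grothendieck inequality for maps into `L²`. -/
theorem gt (Φ : LM H) {m : ℝ} (hΦ : ∀ x ∈ P, Φ x ∈ P ∧ w.n2 (Φ x) ≤ m * ‖x‖ ^ 2) (hm : 0 ≤ m)
    {Ω : Type*} [Fintype Ω] {y : Ω → Op H} (hy : ∀ ω, y ω ∈ P) :
    av (fun ω => w.n2 (Φ (y ω))) ≤
      2 * m * (‖av fun ω => star (y ω) * y ω‖ + ‖av fun ω => y ω * star (y ω)‖) := by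
  sorry

end TF

end Crest.Agent.R121
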