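import Crest.Agent.R121.Lim

/-! Task 121-B: an averaging operator kills cocycles. -/

set_option autoImplicit false
set_option linter.unusedSectionVars false
set_option linter.unusedVariables false

open scoped InnerProductSpace ComplexOrder
open Filter Topology

namespace Crest.Agent.R121
open Crest.Agent.R124 Crest.OpAlg

variable {H : Type*} [NormedAddCommGroup H] [InnerProductSpace ℂ H] [CompleteSpace H]

theorem merge_snoc {A : Type*} [Mul A] {n : ℕ} (j : Fin n) (a : Fin (n + 1) → A) (c : A) :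
    mergeArgs j.castSucc (Fin.snoc a c : Fin (n + 2) → A) = Fin.snoc (mergeArgs j a) c := by
  funext i
  refine Fin.lastCases ?_ (fun i => ?_) i
  · have h1 : ¬ (n < j.val) := by omega
    have h2 : ¬ (n = j.val) := by omega
    simp [mergeArgs, h1, h2]
  · simp only [mergeArgs, Fin.val_castSucc, Fin.snoc_castSucc, ← Fin.castSucc_succ]

theorem merge_last {A : Type*} [Mul A] {n : ℕ} (a : Fin (n + 1) → A) (c : A) :
    mergeArgs (Fin.last n) (Fin.snoc a c : Fin (n + 2) → A) =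
      Fin.snoc (fun i : Fin n => a i.castSucc) (a (Fin.last n) * c) := by
  funext i
  refine Fin.lastCases ?_ (fun i => ?_) i
  · simp [mergeArgs]
  · simp [mergeArgs]

theorem tail_snoc {A : Type*} {n : ℕ} (a : Fin (n + 1) → A) (c : A) :
    (fun i : Fin (n + 1) => (Fin.snoc a c : Fin (n + 2) → A) i.succ) =
      Fin.snoc (fun i : Fin n => a i.succ) c := by
  funext i
  refine Fin.lastCases ?_ (fun i => ?_) i
  · simp
  · simp only [Fin.snoc_castSucc, ← Fin.castSucc_succ]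

theorem thmA (M : VonNeumannAlgebra H) {Q : LM H → ℝ → Prop} (hQ : Cls M Q) {z : Op H} {C : ℝ}
    {E : LM H →ₗ[ℂ] Op H} (hE : IsE M Q M z C E) {n : ℕ} (f : CM M.toStarSubalgebra (n + 1))
    (hf : Coc f) {K : ℝ}
    (hK : ∀ (a : Fin n → M.toStarSubalgebra) (φ : LM H),
      (∀ c : M.toStarSubalgebra, φ c = f (Fin.snoc a c)) → Q φ (K * ∏ i, ‖a i‖)) :
    ∃ g : CM M.toStarSubalgebra n, ∀ a,
      ((Crest.OpAlg.hochschildDiff g a : M.toStarSubalgebra) : Op H) = f a * z := by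
  let ι : M.toStarSubalgebra →ₗ[ℂ] Op H := M.toStarSubalgebra.subtype.toLinearMap
  obtain ⟨r, hr⟩ := ι.exists_leftInverse_of_injective
    (LinearMap.ker_eq_bot.2 Subtype.val_injective)
  have hr' : ∀ c : M.toStarSubalgebra, r c = c := fun c => DFunLike.congr_fun hr c
  let X : (M.toStarSubalgebra →ₗ[ℂ] M.toStarSubalgebra) →ₗ[ℂ] LM H :=
    { toFun := fun ψ => ι ∘ₗ ψ ∘ₗ r
      map_add' := fun φ ψ => by simp only [LinearMap.add_comp, LinearMap.comp_add]
      map_smul' := fun c φ => by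
        simp only [LinearMap.smul_comp, LinearMap.comp_smul, RingHom.id_apply] }
  let Φ := X.compMultilinearMap f.toMultilinearMap.curryRight
  have hΦ : ∀ a (c : M.toStarSubalgebra), Φ a c = f (Fin.snoc a c) := fun a c => by
    change (f (Fin.snoc a (r c)) : Op H) = _
    rw [hr']
  have hq := fun a => hK a (Φ a) (hΦ a)
  let g₀ := (r ∘ₗ ((-1 : ℂ) ^ (n + 1) • E)).compMultilinearMap Φ
  have hg₀ : ∀ a, (g₀ a : Op H) = (-1 : ℂ) ^ (n + 1) • E (Φ a) := fun a =>
    congrArg Subtype.val (hr' ⟨_, csmul_mem _ (hE.bd _ _ (hq a)).1⟩)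
  refine ⟨g₀.mkContinuous (C * K) fun a => ?_, fun a => ?_⟩
  · change ‖(g₀ a : Op H)‖ ≤ _
    rw [hg₀, norm_smul, mul_assoc]
    simpa using (hE.bd _ _ (hq a)).2
  have key := hE.congr hQ (ψ := 0) (φ := Lm (a 0 : Op H) ∘ₗ Φ (fun i => a i.succ) +
    (∑ j : Fin n, ((-1 : ℤ) ^ (j.val + 1)) • Φ (mergeArgs j a) +
      ((-1 : ℤ) ^ (n + 1)) • (Φ (fun i => a i.castSucc) ∘ₗ Lm (a (Fin.last n) : Op H))) +
      ((-1 : ℤ) ^ (n + 1 + 1)) • (Lm (f a : Op H) ∘ₗ LinearMap.id)) fun x hx => by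
    have h := congrArg Subtype.val (hf (Fin.snoc a ⟨x, hx⟩))
    rw [hochschildDiff, Fin.sum_univ_castSucc, tail_snoc, merge_last] at h
    simp only [merge_snoc, Fin.snoc_castSucc, Fin.snoc_last, Fin.val_castSucc, Fin.val_last,
      AddMemClass.coe_add, MulMemClass.coe_mul, AddSubmonoidClass.coe_finsetSum,
      AddSubgroupClass.coe_zsmul, ← hΦ, ZeroMemClass.coe_zero] at h
    have e : (Fin.snoc a ⟨x, hx⟩ : Fin (n + 2) → M.toStarSubalgebra) 0 = a 0 :=
      Fin.snoc_castSucc (α := fun _ => M.toStarSubalgebra) _ _ 0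
    rw [e] at h
    simpa only [LinearMap.add_apply, LinearMap.sum_apply, LinearMap.smul_apply,
      LinearMap.comp_apply, LinearMap.mulLeft_apply, LinearMap.id_apply, LinearMap.zero_apply]
      using h
  simp only [map_add, map_sum, map_zsmul, map_zero, hE.left _ _ (hq _) _ (a 0).2,
    hE.right _ _ (hq _) _ (a (Fin.last n)).2, hE.left _ _ hQ.id _ (f a).2, hE.id] at key
  simp only [hochschildDiff, MultilinearMap.coe_mkContinuous, AddMemClass.coe_add,
    MulMemClass.coe_mul, AddSubmonoidClass.coe_finsetSum, AddSubgroupClass.coe_zsmul, hg₀,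
    mul_smul_comm, smul_mul_assoc, smul_comm _ ((-1 : ℂ) ^ (n + 1)), ← Finset.smul_sum, ← smul_add]
  rw [add_assoc, eq_neg_of_add_eq_zero_left key, ← Int.cast_smul_eq_zsmul ℂ, ← neg_smul, smul_smul]
  push_cast
  rw [pow_succ _ (n + 1), mul_neg_one, neg_neg, ← mul_pow]
  simp

theorem thmA_bd (M : VonNeumannAlgebra H) {z : Op H} {C : ℝ}
    {E : LM H →ₗ[ℂ] Op H} (hE : IsE M (Bd M) M z C E) {n : ℕ} (f : CM M.toStarSubalgebra (n + 1))
    (hf : Coc f) : ∃ g : CM M.toStarSubalgebra n, ∀ a,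
      ((Crest.OpAlg.hochschildDiff g a : M.toStarSubalgebra) : Op H) = f a * z := by
  refine thmA M (cls_bd M) hE f hf (K := ‖f‖) fun a φ h => ⟨by positivity, fun x hx => ?_⟩
  rw [h ⟨x, hx⟩]
  refine ⟨(f _).2, (f.le_opNorm _).trans_eq ?_⟩
  rw [Fin.prod_univ_castSucc, mul_assoc]
  simp only [Fin.snoc_castSucc, Fin.snoc_last]
  rfl

end Crest.Agent.R121
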