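import Crest.Agent.R121.Lim

/-! Task 121-F: averaging bounded maps, type I. -/

set_option autoImplicit false
set_option linter.unusedSectionVars false
set_option linter.unusedVariables false

open scoped InnerProductSpace ComplexOrder
open Filter Topology

namespace Crest.Agent.R121
open Crest.Agent.R124

variable {H : Type*} [NormedAddCommGroup H] [InnerProductSpace ℂ H] [CompleteSpace H]

namespace TI

variable {P : VonNeumannAlgebra H}

/-- Precomposition with a left multiplication. -/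
noncomputable def pre (a : Op H) : LM H →ₗ[ℂ] LM H where
  toFun φ := φ ∘ₗ Lm a
  map_add' φ ψ := LinearMap.add_comp _ _ _
  map_smul' c φ := LinearMap.smul_comp _ _ _

theorem comp_lm (φ : LM H) (a b : Op H) : (φ ∘ₗ Lm a) ∘ₗ Lm b = φ ∘ₗ Lm (a * b) := by
  ext1 x
  simp

/-- `y ↦ E (φ ∘ L_y)`. -/
noncomputable def psi (E : LM H →ₗ[ℂ] Op H) (φ : LM H) : Op H →ₗ[ℂ] Op H where
  toFun y := E (φ ∘ₗ Lm y)
  map_add' a b := by
    rw [← map_add]; congr 1; ext1 x; simp [add_mul]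
  map_smul' c a := by
    rw [RingHom.id_apply, ← map_smul]; congr 1; ext1 x; simp

theorem psi_apply (E : LM H →ₗ[ℂ] Op H) (φ : LM H) (y : Op H) : psi E φ y = E (φ ∘ₗ Lm y) := rfl

theorem Bd.mono {φ : LM H} {β β' : ℝ} (h : Bd P φ β) (hβ : β ≤ β') : Bd P φ β' :=
  ⟨h.1.trans hβ, fun x hx => ⟨(h.2 x hx).1,
    (h.2 x hx).2.trans (mul_le_mul_of_nonneg_right hβ (norm_nonneg _))⟩⟩

/-- Averaging over one symmetry. -/
noncomputable def th (s : Op H) (E : LM H →ₗ[ℂ] Op H) : LM H →ₗ[ℂ] Op H :=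
  (1 / 2 : ℂ) • (E + Rm s ∘ₗ E ∘ₗ pre s)

theorem th_apply (s : Op H) (E : LM H →ₗ[ℂ] Op H) (φ : LM H) :
    th s E φ = (1 / 2 : ℂ) • (E φ + E (φ ∘ₗ Lm s) * s) := rfl

theorem norm_sym_le {s : Op H} (hs : star s = s) (h2 : s * s = 1) : ‖s‖ ≤ 1 := by
  have h : ‖s‖ * ‖s‖ ≤ 1 := by
    rw [← CStarRing.norm_star_mul_self, hs, h2]; exact norm_one_le'
  nlinarith [norm_nonneg s]

theorem step {B : Set (Op H)} {E : LM H →ₗ[ℂ] Op H} (h : IsE P (Bd P) B 1 1 E) {s : Op H}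
    (hP : s ∈ P) (hs : star s = s) (h2 : s * s = 1) (hB : ∀ a ∈ B, a ∈ P ∧ a * s = s * a) :
    IsE P (Bd P) (insert s B) 1 1 (th s E) := by
  have hn := norm_sym_le hs h2
  refine ⟨fun φ β hφ => ?_, fun φ β hφ a ha => ?_, fun φ β hφ a ha => ?_, ?_⟩
  · obtain ⟨m1, n1⟩ := h.bd φ β hφ
    obtain ⟨m2, n2⟩ := h.bd _ _ ((cls_bd P).right φ β hφ s hP)
    rw [th_apply]
    refine ⟨csmul_mem _ (add_mem m1 (mul_mem m2 hP)), ?_⟩
    have h3 : ‖E (φ ∘ₗ Lm s) * s‖ ≤ β := by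
      refine (norm_mul_le _ _).trans ?_
      have h4 : ‖E (φ ∘ₗ Lm s)‖ ≤ β := by nlinarith [hφ.1]
      nlinarith [hφ.1, norm_nonneg (E (φ ∘ₗ Lm s)), norm_nonneg s]
    rw [norm_smul]
    have h5 := norm_add_le (E φ) (E (φ ∘ₗ Lm s) * s)
    have h6 : ‖(1 / 2 : ℂ)‖ = 1 / 2 := by simp
    rw [h6]; linarith
  · rw [th_apply, th_apply, LinearMap.comp_assoc, h.left φ β hφ a ha,
      h.left _ _ ((cls_bd P).right φ β hφ s hP) a ha, mul_smul_comm, mul_add, mul_assoc]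
  · rcases ha with rfl | ha
    · rw [th_apply, th_apply, comp_lm, h2, smul_mul_assoc, add_mul, mul_assoc, h2, mul_one,
        add_comm]
      congr 3
    · rw [th_apply, th_apply, comp_lm, (hB a ha).2, ← comp_lm, h.right φ β hφ a ha,
        h.right _ _ ((cls_bd P).right φ β hφ s hP) a ha, smul_mul_assoc, add_mul, mul_assoc,
        mul_assoc, (hB a ha).2]
  · have e : (LinearMap.id : LM H) ∘ₗ Lm s = Lm s ∘ₗ LinearMap.id := by ext1 x; simp
    rw [th_apply, e, h.left _ _ (cls_bd P).id s hP, h.id, mul_one, h2, ← two_smul ℂ, smul_smul]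
    norm_num

theorem base : ∃ E, IsE P (Bd P) ∅ 1 1 E := by
  refine ⟨LinearMap.applyₗ (1 : Op H), fun φ β hφ => ⟨(hφ.2 1 (one_mem P)).1, ?_⟩,
    fun φ β hφ a ha => rfl, fun φ β hφ a ha => ha.elim, rfl⟩
  have := (hφ.2 1 (one_mem P)).2
  have h1 : ‖(1 : Op H)‖ ≤ 1 := norm_one_le'
  change ‖φ 1‖ ≤ _
  nlinarith [hφ.1]

theorem comm_avg {S : Set (Op H)} (hS : ∀ s ∈ S, s ∈ P ∧ star s = s ∧ s * s = 1)
    (hc : ∀ s ∈ S, ∀ t ∈ S, s * t = t * s) : ∃ E, IsE P (Bd P) S 1 1 E := by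
  classical
  have key : ∀ F : Finset (Op H), ∃ E, IsE P (Bd P) (↑F ∩ S) 1 1 E := fun F => by
    induction F using Finset.induction_on with
    | empty => simpa using base
    | insert s F hs ih =>
      obtain ⟨E, hE⟩ := ih
      by_cases h : s ∈ S
      · refine ⟨_, (step hE (hS s h).1 (hS s h).2.1 (hS s h).2.2
          fun a ha => ⟨(hS a ha.2).1, hc a ha.2 s h⟩).mono ?_⟩
        rintro a ⟨h1, h2⟩
        rcases Finset.mem_insert.1 h1 with rfl | h1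
        · exact Set.mem_insert _ _
        · exact Set.mem_insert_of_mem _ ⟨h1, h2⟩
      · refine ⟨E, hE.mono ?_⟩
        rintro a ⟨h1, h2⟩
        rcases Finset.mem_insert.1 h1 with rfl | h1
        · exact absurd h2 h
        · exact ⟨h1, h2⟩
  choose E hE using key
  refine isE_of_approx (cls_bd P) (fun a ha => (hS a ha).1) (Ultrafilter.of atTop) E
    (fun F => (hE F).mono (Set.empty_subset _)) Set.univ
    (fun t _ h => by ext1 x; exact h x trivial) fun φ β hφ a ha ξ _ => ?_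
  refine Tendsto.mono_left ?_ (Ultrafilter.of_le _)
  refine tendsto_const_nhds.congr' ?_
  filter_upwards [eventually_ge_atTop ({a} : Finset (Op H))] with F hF
  rw [(hE F).right φ β hφ a ⟨hF (Finset.mem_singleton_self a), ha⟩, sub_self]
  rfl

/-- The corner `e P e`. -/
def Cor (P : VonNeumannAlgebra H) (e : Op H) : Set (Op H) := {a | a ∈ P ∧ e * a = a ∧ a * e = a}

theorem abel_avg {e : Op H} (he : IsStarProjection e) (hA : Abel P e) :
    ∃ E, IsE P (Bd P) (Cor P e) 1 1 E := by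
  have hcomm : ∀ a ∈ Cor P e, ∀ b ∈ Cor P e, a * b = b * a := fun a ha b hb => by
    have := hA a ha.1 b hb.1
    rwa [ha.2.1, hb.2.1, ha.2.2, hb.2.2] at this
  obtain ⟨E, hE⟩ := comm_avg (P := P)
    (S := {s | ∃ a ∈ Cor P e, IsSelfAdjoint a ∧ ∃ t, s = 1 - (2 : ℂ) • sp a t}) (by
      rintro _ ⟨a, ha, hs, t, rfl⟩
      refine ⟨sub_mem (one_mem P) (csmul_mem _ (sp_mem hs ha.1 t)), ?_, ?_⟩
      · simp [(sp_proj a t).isSelfAdjoint.star_eq]
      · simp only [mul_sub, sub_mul, mul_one, one_mul, mul_smul_comm, smul_mul_assoc,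
          (sp_proj a t).isIdempotentElem.eq]
        module) (by
      rintro _ ⟨a, ha, hs, t, rfl⟩ _ ⟨b, hb, hs', t', rfl⟩
      have h1 := sp_comm hs' (sp_comm hs (hcomm b hb a ha) t).symm t'
      simp only [mul_sub, sub_mul, mul_one, one_mul, mul_smul_comm, smul_mul_assoc, h1]
      module)
  refine ⟨E, hE.bd, hE.left, fun φ β hφ a ha => ?_, hE.id⟩
  let D : Op H →ₗ[ℂ] Op H := psi E φ - Lm (E φ)
  have hD : ∀ a, D a = E (φ ∘ₗ Lm a) - E φ * a := fun a => rfl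
  have hD1 : D 1 = 0 := by
    have : φ ∘ₗ Lm 1 = φ := by ext1 x; simp
    rw [hD, this, mul_one, sub_self]
  have hDn : ∀ a ∈ P, ‖D a‖ ≤ 2 * β * ‖a‖ := fun a ha => by
    have h1 := (hE.bd _ _ ((cls_bd P).right φ β hφ a ha)).2
    have h2 := (hE.bd _ _ hφ).2
    have h3 := norm_mul_le (E φ) a
    have h4 := norm_sub_le (E (φ ∘ₗ Lm a)) (E φ * a)
    rw [hD]
    nlinarith [norm_nonneg a]
  have hsa : ∀ a ∈ Cor P e, IsSelfAdjoint a → D a = 0 := fun a ha hs => by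
    have hsp : ∀ t, D (sp a t) = 0 := fun t => by
      have h1 : D (1 - (2 : ℂ) • sp a t) = 0 := by
        rw [hD, hE.right φ β hφ _ ⟨a, ha, hs, t, rfl⟩, sub_self]
      rw [map_sub, hD1, map_smul, zero_sub, neg_eq_zero] at h1
      simpa using h1
    refine norm_le_zero_iff.1 (le_of_forall_pos_le_add fun ε hε => ?_)
    have hε' : 0 < ε / (2 * β + 1) := div_pos hε (by linarith [hφ.1])
    obtain ⟨n, c, t, c₀, h⟩ := exists_step hs hε'
    have h1 : D (c₀ • (1 : Op H) + ∑ i, c i • sp a (t i)) = 0 := by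
      have e1 : ∀ (r : ℝ) (x : Op H), D (r • x) = r • D x := fun r x => D.map_smul (r : ℂ) x
      simp [map_sum, e1, hD1, hsp]
    have h2 := hDn (a - (c₀ • (1 : Op H) + ∑ i, c i • sp a (t i)))
      (sub_mem ha.1 (add_mem (rsmul_mem _ (one_mem P))
        (sum_mem fun i _ => rsmul_mem _ (sp_mem hs ha.1 _))))
    rw [map_sub, h1, sub_zero] at h2
    have h3 : 2 * β * (ε / (2 * β + 1)) ≤ ε := by
      rw [← mul_div_assoc, div_le_iff₀ (by linarith [hφ.1])]; nlinarith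
    have h4 := mul_le_mul_of_nonneg_left h (by linarith [hφ.1] : 0 ≤ 2 * β)
    linarith
  have hst : star a ∈ Cor P e := ⟨star_mem ha.1, by
    simpa [he.isSelfAdjoint.star_eq] using congrArg star ha.2.2, by
    simpa [he.isSelfAdjoint.star_eq] using congrArg star ha.2.1⟩
  have h1 := hsa (a + star a) ⟨add_mem ha.1 hst.1, by rw [mul_add, ha.2.1, hst.2.1],
    by rw [add_mul, ha.2.2, hst.2.2]⟩ (by simp [IsSelfAdjoint, add_comm])
  have h2 := hsa (Complex.I • (a - star a)) ⟨csmul_mem _ (sub_mem ha.1 hst.1),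
    by rw [mul_smul_comm, mul_sub, ha.2.1, hst.2.1],
    by rw [smul_mul_assoc, sub_mul, ha.2.2, hst.2.2]⟩ (by
      simp only [IsSelfAdjoint, star_smul, star_sub, star_star, Complex.star_def, Complex.conj_I]
      module)
  rw [map_smul, smul_eq_zero, or_iff_right Complex.I_ne_zero, map_sub, sub_eq_zero] at h2
  rw [map_add, ← h2, ← two_smul ℂ, smul_eq_zero, or_iff_right two_ne_zero, hD, sub_eq_zero] at h1
  exact h1

/-- Domination from testing on columns. -/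
theorem dom {S R p : Op H} {b : ℝ} (hb : 0 ≤ b) (hS : S ∈ P) (hR : R ∈ P) {n : ℕ}
    {w : Fin n → Op H} (hp : p = ∑ k, w k * star (w k)) (hSp : S * p = S)
    (h : ∀ q ∈ P, ∀ k, ‖S * (q * w k)‖ ≤ b * ‖R * (q * w k)‖) (ξ : H) :
    ‖S ξ‖ ≤ b * ‖R ξ‖ := by
  set A : Op H := star S * S - (b ^ 2) • (star R * R) with hA
  have hAs : IsSelfAdjoint A := by simp [IsSelfAdjoint, hA]
  have hAP : A ∈ P := sub_mem (mul_mem (star_mem hS) hS) (rsmul_mem _ (mul_mem (star_mem hR) hR))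
  have hq : ∀ η : H, (⟪A η, η⟫_ℂ).re = ‖S η‖ ^ 2 - b ^ 2 * ‖R η‖ ^ 2 := fun η => by
    have e : ∀ T : Op H, ⟪(star T * T) η, η⟫_ℂ = ((‖T η‖ ^ 2 : ℝ) : ℂ) := fun T => by
      rw [mul_apply_eq_comp, ContinuousLinearMap.star_eq_adjoint,
        ContinuousLinearMap.adjoint_inner_left, inner_self_eq_norm_sq_to_K]
      simp
    have e2 : A η = (star S * S) η - ((b ^ 2 : ℝ) : ℂ) • (star R * R) η := rfl
    rw [e2, inner_sub_left, inner_smul_left, e, e, Complex.conj_ofReal, ← Complex.ofReal_mul,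
      ← Complex.ofReal_sub, Complex.ofReal_re]
  have hle : ∀ {X Y : Op H}, X ≤ Y → ∀ η : H, (⟪X η, η⟫_ℂ).re ≤ (⟪Y η, η⟫_ℂ).re :=
    fun {X Y} hXY η => by
      have := ((ContinuousLinearMap.le_def X Y).1 hXY).re_inner_nonneg_left η
      rw [sub_apply, inner_sub_left] at this
      simpa using this
  have hsm : ∀ (t : ℝ) (η : H), (⟪(t : ℂ) • η, η⟫_ℂ).re = t * ‖η‖ ^ 2 := fun t η => by
    have e : ⟪η, η⟫_ℂ = ((‖η‖ ^ 2 : ℝ) : ℂ) := by rw [inner_self_eq_norm_sq_to_K]; simp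
    rw [inner_smul_left, e, Complex.conj_ofReal, ← Complex.ofReal_mul, Complex.ofReal_re]
  have key : ∀ t : ℝ, 0 < t → sp A t = 0 := fun t ht => by
    have hqp := sp_proj A t
    have hqP := sp_mem hAs hAP t
    have h1 : ∀ η : H, t * ‖sp A t η‖ ^ 2 ≤ ‖S (sp A t η)‖ ^ 2 - b ^ 2 * ‖R (sp A t η)‖ ^ 2 :=
      fun η => by
        have h2 := hle (smul_sp_le hAs t) (sp A t η)
        have h3 : sp A t (sp A t η) = sp A t η :=
          DFunLike.congr_fun hqp.isIdempotentElem.eq η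
        have h4 : (t • sp A t) (sp A t η) = (t : ℂ) • sp A t η := by
          change (t : ℂ) • sp A t (sp A t η) = _
          rw [h3]
        rwa [h4, hsm, mul_apply_eq_comp, h3, hq] at h2
    have h2 : ∀ k, sp A t * w k = 0 := fun k => by
      have h3 := h _ hqP k
      set y := sp A t * w k with hy
      have h4 : ∀ ξ : H, t * ‖y ξ‖ ^ 2 + b ^ 2 * ‖(R * y) ξ‖ ^ 2 ≤
          b ^ 2 * ‖R * y‖ ^ 2 * ‖ξ‖ ^ 2 := fun ξ => by
        have h5 := h1 (w k ξ)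
        have h6 : ‖(S * y) ξ‖ ≤ b * ‖R * y‖ * ‖ξ‖ :=
          ((S * y).le_opNorm ξ).trans (mul_le_mul_of_nonneg_right h3 (norm_nonneg _))
        have h7 := pow_le_pow_left₀ (norm_nonneg _) h6 2
        change t * ‖y ξ‖ ^ 2 ≤ ‖(S * y) ξ‖ ^ 2 - b ^ 2 * ‖(R * y) ξ‖ ^ 2 at h5
        nlinarith
      set τ := t / (‖R‖ ^ 2 + 1) with hτ
      have hτ0 : 0 < τ := by positivity
      have h5 : ∀ ξ : H, (τ + b ^ 2) * ‖(R * y) ξ‖ ^ 2 ≤ b ^ 2 * ‖R * y‖ ^ 2 * ‖ξ‖ ^ 2 :=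
        fun ξ => by
          have h6 : ‖(R * y) ξ‖ ≤ ‖R‖ * ‖y ξ‖ := R.le_opNorm _
          have h7 := pow_le_pow_left₀ (norm_nonneg _) h6 2
          have h8 : τ * ‖(R * y) ξ‖ ^ 2 ≤ t * ‖y ξ‖ ^ 2 := by
            rw [hτ, div_mul_eq_mul_div, div_le_iff₀ (by positivity)]
            have : ‖(R * y) ξ‖ ^ 2 ≤ ‖y ξ‖ ^ 2 * (‖R‖ ^ 2 + 1) := by nlinarith [sq_nonneg ‖y ξ‖]
            nlinarith
          nlinarith [h4 ξ]
      have h6 : ‖R * y‖ ≤ √(b ^ 2 * ‖R * y‖ ^ 2 / (τ + b ^ 2)) := by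
        refine ContinuousLinearMap.opNorm_le_bound _ (Real.sqrt_nonneg _) fun ξ => ?_
        rw [← Real.sqrt_sq (norm_nonneg ξ), ← Real.sqrt_mul (by positivity)]
        refine Real.le_sqrt_of_sq_le ?_
        rw [div_mul_eq_mul_div, le_div_iff₀ (by positivity)]
        linarith [h5 ξ]
      have h7 : ‖R * y‖ ^ 2 ≤ b ^ 2 * ‖R * y‖ ^ 2 / (τ + b ^ 2) :=
        (Real.le_sqrt (norm_nonneg _) (by positivity)).1 h6
      rw [le_div_iff₀ (by positivity)] at h7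
      have h8 : ‖R * y‖ ^ 2 = 0 := by nlinarith [sq_nonneg ‖R * y‖]
      ext1 ξ
      have h9 := h4 ξ
      rw [h8] at h9
      have h10 : ‖y ξ‖ ^ 2 ≤ 0 := by nlinarith [mul_nonneg (sq_nonneg b) (sq_nonneg ‖(R * y) ξ‖)]
      simpa using h10
    have h3 : p * sp A t = 0 := by
      rw [hp, Finset.sum_mul]
      refine Finset.sum_eq_zero fun k _ => ?_
      have := congrArg star (h2 k)
      rw [star_mul, hqp.isSelfAdjoint.star_eq, star_zero] at this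
      rw [mul_assoc, this, mul_zero]
    have h4 : S * sp A t = 0 := by rw [← hSp, mul_assoc, h3, mul_zero]
    ext1 η
    have h5 := h1 η
    have h6 : S (sp A t η) = 0 := DFunLike.congr_fun h4 η
    rw [h6, norm_zero] at h5
    have h10 : ‖sp A t η‖ ^ 2 ≤ 0 := by
      nlinarith [mul_nonneg (sq_nonneg b) (sq_nonneg ‖R (sp A t η)‖)]
    simpa using h10
  have h1 : ‖S ξ‖ ^ 2 ≤ (b * ‖R ξ‖) ^ 2 := by
    refine le_of_forall_pos_le_add fun ε hε => ?_
    have ht : 0 < ε / (‖ξ‖ ^ 2 + 1) := by positivity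
    have h2 := hle (le_of_sp_eq_zero hAs (key _ ht)) ξ
    have h4 : ((ε / (‖ξ‖ ^ 2 + 1)) • (1 : Op H)) ξ = ((ε / (‖ξ‖ ^ 2 + 1) : ℝ) : ℂ) • ξ := rfl
    rw [h4, hsm, hq, div_mul_eq_mul_div] at h2
    have h5 : ε * ‖ξ‖ ^ 2 / (‖ξ‖ ^ 2 + 1) ≤ ε := by
      rw [div_le_iff₀ (by positivity)]; nlinarith
    nlinarith
  exact (pow_le_pow_iff_left₀ (norm_nonneg _) (by positivity) two_ne_zero).1 h1

theorem proj_sum {n : ℕ} {w : Fin n → Op H} (hw : ∀ i, PI (w i))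
    (ho : ∀ i j, i ≠ j → star (w i) * w j = 0) :
    IsStarProjection (∑ k, w k * star (w k)) ∧
      ∀ k, star (w k) * ∑ k, w k * star (w k) = star (w k) := by
  have h1 : ∀ k, star (w k) * ∑ k, w k * star (w k) = star (w k) := fun k => by
    rw [Finset.mul_sum, Finset.sum_eq_single_of_mem k (Finset.mem_univ k) fun j _ hj => by
      rw [← mul_assoc, ho k j hj.symm, zero_mul]]
    have := (hw k).star
    rwa [PI, star_star, mul_assoc] at this
  refine ⟨⟨?_, ?_⟩, h1⟩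
  · change _ * _ = _
    rw [Finset.sum_mul]
    exact Finset.sum_congr rfl fun k _ => by rw [mul_assoc, h1]
  · simp [IsSelfAdjoint, star_sum]

theorem approx {e : Op H} (heP : e ∈ P) (he : IsStarProjection e) (hA : Abel P e) {n : ℕ}
    {w : Fin n → Op H} (hw : ∀ i, w i ∈ P ∧ PI (w i) ∧ w i * e = w i)
    (ho : ∀ i j, i ≠ j → star (w i) * w j = 0) :
    ∃ E, IsE P (Bd P) ∅ 1 2 E ∧ ∀ φ β, Bd P φ β → ∀ x ∈ P, ∀ ξ : H,
      ‖(E (φ ∘ₗ Lm x) - E φ * x) ξ‖ ≤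
        β * (3 * ‖x‖ * ‖ξ - (∑ k, w k * star (w k)) ξ‖ +
          2 * ‖x ξ - (∑ k, w k * star (w k)) (x ξ)‖) := by
  obtain ⟨E₀, h₀⟩ := abel_avg he hA
  obtain ⟨hp, hwp⟩ := proj_sum (fun i => (hw i).2.1) ho
  set p : Op H := ∑ k, w k * star (w k) with hpd
  have hpP : p ∈ P := sum_mem fun k _ => mul_mem (hw k).1 (star_mem (hw k).1)
  have hqP : 1 - p ∈ P := sub_mem (one_mem P) hpP
  have hp1 : ‖p‖ ≤ 1 := hp.norm_le
  have hq1 : ‖1 - p‖ ≤ 1 := hp.one_sub.norm_le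
  let T : LM H →ₗ[ℂ] Op H := ∑ k, Rm (star (w k)) ∘ₗ E₀ ∘ₗ pre (w k)
  have hT : ∀ φ, T φ = ∑ k, psi E₀ φ (w k) * star (w k) := fun φ => by
    simp only [T, LinearMap.sum_apply]; rfl
  have hps : ∀ φ β, Bd P φ β → ∀ y ∈ P, psi E₀ φ y ∈ P ∧ ‖psi E₀ φ y‖ ≤ β * ‖y‖ :=
    fun φ β hφ y hy => by
      simpa [psi_apply] using h₀.bd _ _ ((cls_bd P).right φ β hφ y hy)
  have hTP : ∀ φ β, Bd P φ β → T φ ∈ P := fun φ β hφ => by
    rw [hT]
    exact sum_mem fun k _ => mul_mem (hps φ β hφ _ (hw k).1).1 (star_mem (hw k).1)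
  have hTp : ∀ φ, T φ * p = T φ := fun φ => by
    rw [hT, Finset.sum_mul]
    exact Finset.sum_congr rfl fun k _ => by rw [mul_assoc, hwp]
  have hTy : ∀ φ β, Bd P φ β → ∀ y ∈ P, y * e = y → T φ * y = psi E₀ φ (p * y) :=
    fun φ β hφ y hy hye => by
      rw [hT, hpd, Finset.sum_mul, Finset.sum_mul, map_sum]
      refine Finset.sum_congr rfl fun k _ => ?_
      have h1 : e * star (w k) = star (w k) := by
        simpa [he.isSelfAdjoint.star_eq] using congrArg star (hw k).2.2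
      rw [mul_assoc, mul_assoc, psi_apply, psi_apply, ← comp_lm,
        h₀.right _ _ ((cls_bd P).right φ β hφ _ (hw k).1) _
          ⟨mul_mem (star_mem (hw k).1) hy, by rw [← mul_assoc, h1], by rw [mul_assoc, hye]⟩]
  have hdom : ∀ φ β, Bd P φ β → ∀ z ∈ P, ∀ ξ : H, ‖T (φ ∘ₗ Lm z) ξ‖ ≤ β * ‖(z * p) ξ‖ :=
    fun φ β hφ z hz => by
      have hφ' := (cls_bd P).right φ β hφ z hz
      refine dom hφ.1 (hTP _ _ hφ') (mul_mem hz hpP) hpd (hTp _) fun q hq k => ?_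
      have hy : q * w k ∈ P := mul_mem hq (hw k).1
      rw [hTy _ _ hφ' _ hy (by rw [mul_assoc, (hw k).2.2]), psi_apply, comp_lm, ← mul_assoc]
      exact (hps φ β hφ _ (mul_mem (mul_mem hz hpP) hy)).2
  have hl1 : ∀ φ : LM H, φ ∘ₗ Lm 1 = φ := fun φ => by ext1 x; simp
  have hTn : ∀ φ β, Bd P φ β → ‖T φ‖ ≤ β := fun φ β hφ => by
    refine ContinuousLinearMap.opNorm_le_bound _ hφ.1 fun ξ => ?_
    have h1 := hdom φ β hφ 1 (one_mem P) ξ
    rw [hl1, one_mul] at h1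
    have h2 := p.le_opNorm ξ
    have h3 : ‖p ξ‖ ≤ ‖ξ‖ := by nlinarith [norm_nonneg ξ]
    exact h1.trans (mul_le_mul_of_nonneg_left h3 hφ.1)
  let E : LM H →ₗ[ℂ] Op H := T + Rm (1 - p) ∘ₗ LinearMap.applyₗ (1 - p)
  have hE : ∀ φ, E φ = T φ + φ (1 - p) * (1 - p) := fun φ => rfl
  refine ⟨E, ⟨fun φ β hφ => ?_, fun φ β hφ a ha => ?_, fun φ β hφ a ha => ha.elim, ?_⟩,
    fun φ β hφ x hx ξ => ?_⟩
  · obtain ⟨m1, n1⟩ := hφ.2 _ hqP
    rw [hE]
    refine ⟨add_mem (hTP φ β hφ) (mul_mem m1 hqP), (norm_add_le _ _).trans ?_⟩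
    have h1 := norm_mul_le (φ (1 - p)) (1 - p)
    have h2 : ‖φ (1 - p)‖ ≤ β := by nlinarith [hφ.1]
    have h3 := hTn φ β hφ
    nlinarith [norm_nonneg (φ (1 - p)), norm_nonneg (1 - p)]
  · rw [hE, hE, hT, hT, mul_add, Finset.mul_sum, ← mul_assoc]
    congr 1
    refine Finset.sum_congr rfl fun k _ => ?_
    rw [psi_apply, psi_apply, LinearMap.comp_assoc,
      h₀.left _ _ ((cls_bd P).right φ β hφ _ (hw k).1) a ha, mul_assoc]
  · have e1 : ∀ k, psi E₀ LinearMap.id (w k) = w k := fun k => by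
      have e : (LinearMap.id : LM H) ∘ₗ Lm (w k) = Lm (w k) ∘ₗ LinearMap.id := by ext1 x; simp
      rw [psi_apply, e, h₀.left _ _ (cls_bd P).id _ (hw k).1, h₀.id, mul_one]
    rw [hE, hT, LinearMap.id_apply, hp.one_sub.isIdempotentElem.eq]
    simp only [e1]
    rw [← hpd]; abel
  · have e1 : T (φ ∘ₗ Lm x) = T φ * x * p + T (φ ∘ₗ Lm ((1 - p) * x)) := by
      rw [hT (φ ∘ₗ Lm x), hT (φ ∘ₗ Lm ((1 - p) * x)), hpd, Finset.mul_sum, ← hpd,
        ← Finset.sum_add_distrib]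
      refine Finset.sum_congr rfl fun k _ => ?_
      rw [← mul_assoc, ← add_mul, mul_assoc (T φ),
        hTy φ β hφ _ (mul_mem hx (hw k).1) (by rw [mul_assoc, (hw k).2.2]), psi_apply, psi_apply,
        psi_apply, comp_lm, comp_lm, ← psi_apply, ← psi_apply, ← psi_apply, ← map_add]
      congr 2
      noncomm_ring
    have e2 : (E (φ ∘ₗ Lm x) - E φ * x) ξ = -(T φ * x) ((1 - p) ξ) +
        T (φ ∘ₗ Lm ((1 - p) * x)) ξ + φ (x * (1 - p)) ((1 - p) ξ) -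
        φ (1 - p) ((1 - p) (x ξ)) := by
      have : E (φ ∘ₗ Lm x) - E φ * x = -(T φ * x * (1 - p)) + T (φ ∘ₗ Lm ((1 - p) * x)) +
          φ (x * (1 - p)) * (1 - p) - φ (1 - p) * (1 - p) * x := by
        rw [hE, hE, e1]
        change _ + φ (x * (1 - p)) * (1 - p) - _ = _
        noncomm_ring
      rw [this]; rfl
    have a1 : ξ - p ξ = (1 - p) ξ := rfl
    have a2 : x ξ - p (x ξ) = (1 - p) (x ξ) := rfl
    rw [e2, a1, a2]
    set u := ‖(1 - p) ξ‖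
    set v := ‖(1 - p) (x ξ)‖
    have hu : 0 ≤ u := norm_nonneg _
    have hv : 0 ≤ v := norm_nonneg _
    have hβ := hφ.1
    have hx0 := norm_nonneg x
    have b1 : ‖-(T φ * x) ((1 - p) ξ)‖ ≤ β * ‖x‖ * u := by
      rw [norm_neg]
      refine ((T φ * x).le_opNorm _).trans (mul_le_mul_of_nonneg_right ?_ hu)
      exact (norm_mul_le _ _).trans (mul_le_mul_of_nonneg_right (hTn φ β hφ) hx0)
    have b2 : ‖T (φ ∘ₗ Lm ((1 - p) * x)) ξ‖ ≤ β * (v + ‖x‖ * u) := by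
      refine (hdom φ β hφ _ (mul_mem hqP hx) ξ).trans (mul_le_mul_of_nonneg_left ?_ hβ)
      have : ((1 - p) * x * p) ξ = (1 - p) (x ξ) - ((1 - p) * x) ((1 - p) ξ) := by
        have : (1 - p) * x * p = (1 - p) * x - (1 - p) * x * (1 - p) := by noncomm_ring
        rw [this]; rfl
      rw [this]
      refine (norm_sub_le _ _).trans (add_le_add le_rfl ?_)
      refine (((1 - p) * x).le_opNorm _).trans (mul_le_mul_of_nonneg_right ?_ hu)
      exact (norm_mul_le _ _).trans (by nlinarith)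
    have b3 : ‖φ (x * (1 - p)) ((1 - p) ξ)‖ ≤ β * ‖x‖ * u := by
      refine ((φ _).le_opNorm _).trans (mul_le_mul_of_nonneg_right ?_ hu)
      refine (hφ.2 _ (mul_mem hx hqP)).2.trans (mul_le_mul_of_nonneg_left ?_ hβ)
      exact (norm_mul_le _ _).trans (by nlinarith)
    have b4 : ‖φ (1 - p) ((1 - p) (x ξ))‖ ≤ β * v := by
      refine ((φ _).le_opNorm _).trans (mul_le_mul_of_nonneg_right ?_ hv)
      exact (hφ.2 _ hqP).2.trans (by nlinarith)
    refine (norm_sub_le _ _).trans ?_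
    have := norm_add₃_le (a := -(T φ * x) ((1 - p) ξ)) (b := T (φ ∘ₗ Lm ((1 - p) * x)) ξ)
      (c := φ (x * (1 - p)) ((1 - p) ξ))
    nlinarith

end TI

theorem exists_E_typeI (P : VonNeumannAlgebra H) (h : TypeI P) : ∃ E, IsE P (Bd P) P 1 2 E := by
  classical
  have key : ∀ i : Finset H × ℕ, ∃ (E : LM H →ₗ[ℂ] Op H) (p : Op H), IsE P (Bd P) ∅ 1 2 E ∧
      (∀ φ β, Bd P φ β → ∀ x ∈ P, ∀ ξ : H, ‖(E (φ ∘ₗ Lm x) - E φ * x) ξ‖ ≤
        β * (3 * ‖x‖ * ‖ξ - p ξ‖ + 2 * ‖x ξ - p (x ξ)‖)) ∧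
      ∀ ξ ∈ i.1, ‖ξ - p ξ‖ ≤ 1 / ((i.2 : ℝ) + 1) := fun i => by
    obtain ⟨e, heP, he, hA, n, w, hw, ho, hs⟩ := h i.1 _ Nat.one_div_pos_of_nat
    obtain ⟨E, h1, h2⟩ := TI.approx heP he hA hw ho
    exact ⟨E, _, h1, h2, hs⟩
  choose E p hE hd hp using key
  have hlim : ∀ ξ : H, Tendsto (fun i => ‖ξ - p i ξ‖) atTop (𝓝 0) := fun ξ => by
    have h1 : Tendsto (fun i : Finset H × ℕ => 1 / ((i.2 : ℝ) + 1)) atTop (𝓝 0) :=
      tendsto_one_div_add_atTop_nhds_zero_nat.comp (by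
        rw [← prod_atTop_atTop_eq]; exact tendsto_snd)
    refine squeeze_zero' (Eventually.of_forall fun _ => norm_nonneg _) ?_ h1
    filter_upwards [eventually_ge_atTop (({ξ}, 0) : Finset H × ℕ)] with i hi
    exact hp i ξ (hi.1 (Finset.mem_singleton_self ξ))
  refine isE_of_approx (cls_bd P) (fun a ha => ha) (Ultrafilter.of atTop) E hE Set.univ
    (fun t _ h => by ext1 x; exact h x trivial) fun φ β hφ a ha ξ _ => ?_
  refine Tendsto.mono_left ?_ (Ultrafilter.of_le _)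
  refine squeeze_zero_norm (fun i => hd i φ β hφ a ha ξ) ?_
  simpa using (((hlim ξ).const_mul (3 * ‖a‖)).add ((hlim (a ξ)).const_mul 2)).const_mul β

end Crest.Agent.R121
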