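import Crest.Agent.R121.Law

/-! The random walk (helper1). -/

set_option autoImplicit false
set_option linter.unusedSectionVars false
set_option linter.unusedVariables false

open scoped InnerProductSpace ComplexOrder
open Filter Topology

namespace Crest.Agent.R121
open Crest.Agent.R124

variable {H : Type*} [NormedAddCommGroup H] [InnerProductSpace ℂ H] [CompleteSpace H]

theorem walk {N : VonNeumannAlgebra H} (T : Tr N) (hP : Part N T) {Γ : Type} [Group Γ]
    [Fintype Γ] (d : Sym N Γ) : Walk N d.σ d.T0 := by
  sorry

end Crest.Agent.R121
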